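import Vale.Agent.P280Z.Sq.Sk
import Vale.Agent.P281Z.Mf.Adj

/-!
# P280Z, block Sq: the Jacobian determinant along a map (row JAC)
-/

open scoped Manifold ContDiff Topology Matrix
open Set Filter Matrix
open Vale.Agent.P272.K Vale.Agent.P285.H281.FD Vale.Agent.P281Z
open Vale.Agent.P277Z (at_chart)
open Vale.Agent.P277Z.Slc (lin tr isLB_can)
open Vale.Agent.P277.HD (pull)

noncomputable section

namespace Vale.Agent.P280Z.Sq

namespace JacH

theorem det_ne {n p d : ℕ} (σ : Fin p ⊕ Fin d ≃ Fin n) (A : Matrix (Fin p) (Fin n) ℂ)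
    (R : Matrix (Fin d) (Fin n) ℂ) :
    detR σ A R ≠ 0 ↔ ∀ v, A *ᵥ v = 0 → R *ᵥ v = 0 → v = 0 := by
  have h : ∀ v, (fromRows A R).submatrix σ.symm id *ᵥ v = 0 ↔ A *ᵥ v = 0 ∧ R *ᵥ v = 0 := fun v =>
    ⟨fun k => ⟨funext fun a => by simpa [mulVec, dotProduct] using congrFun k (σ (.inl a)),
      funext fun a => by simpa [mulVec, dotProduct] using congrFun k (σ (.inr a))⟩,
      fun k => funext fun a => by
        obtain ⟨a | a, rfl⟩ := σ.surjective a
        · simpa [mulVec, dotProduct] using congrFun k.1 a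
        · simpa [mulVec, dotProduct] using congrFun k.2 a⟩
  rw [detR, Ne, ← exists_mulVec_eq_zero_iff]
  simp only [h]
  exact ⟨fun k v k1 k2 => not_not.1 fun l => k ⟨v, l, k1, k2⟩, fun k ⟨v, l, k1, k2⟩ => l (k v k1 k2)⟩

end JacH

theorem jac : JAC := by
  intro n q d k X Y P π i t hπ hi ht h
  have σ := sig h.symm
  have h0 : ∀ y : Cm d, At (chartAt (Cm d) (0 : Cm d)) y := fun y => at_chart y
  have hs : IsSec k (pull i (lin ![Bd.can n X.X, pull π (Bd.can q Y.X)] ![1, -1])) fun a z =>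
      detR σ (dfM π (a 0) (a 1) (i z)) (dfM t (a 0) (chartAt (Cm d) (0 : Cm d)) (i z)) := by
    refine ⟨fun a e z he ha => (hol_det (M := fun z => (fromRows (dfM π (a 0) (a 1) (i z))
      (dfM t (a 0) (chartAt (Cm d) (0 : Cm d)) (i z))).submatrix σ.symm id) (fun b c => ?_)
      e he).contDiffAt, fun a b z ha hb => ?_⟩
    · simp only [submatrix_apply, id]
      rcases σ.symm b with b | b
      · exact hi.hol (a := fun w => dfM π (a 0) (a 1) w b c) (hol_dfM (hπ.at _) (ha 0) (ha 1) b c)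
      · exact hi.hol (a := fun w => dfM t (a 0) _ w b c) (hol_dfM (ht z) (ha 0) (h0 _) b c)
    · have k1 : (jacM (a 1) (b 1) (π (i z))).det ≠ 0 :=
        (isLB_can (n := q) (W := Y.X)).ne_zero _ _ _ (ha 1) (hb 1)
      have k2 : (pull i (lin ![Bd.can n X.X, pull π (Bd.can q Y.X)] ![1, -1])).g a b z =
          (jacM (a 0) (b 0) (i z)).det * (jacM (a 1) (b 1) (π (i z))).det⁻¹ :=
        (Fin.prod_univ_two fun c => (![Bd.can n X.X, pull π (Bd.can q Y.X)] c).g (a c) (b c) (i z) ^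
          ![(1 : ℤ), -1] c).trans (congrArg₂ (· * · : ℂ → ℂ → ℂ)
          (zpow_one (jacM (a 0) (b 0) (i z)).det) (zpow_neg_one (jacM (a 1) (b 1) (π (i z))).det))
      rw [k2, dfM_chg (hπ.at _) (hb 0) (ha 0) (ha 1), dfM_chg (ht z) (hb 0) (ha 0) (h0 _), detR_mul,
        dfM_chg' (hπ.at _) (hb 0) (ha 1) (hb 1), detR_left, mul_assoc,
        inv_mul_cancel_left₀ k1, mul_comm]
  refine ⟨_, hs, fun z => ?_⟩
  let a : (pull i (lin ![Bd.can n X.X, pull π (Bd.can q Y.X)] ![1, -1])).ι :=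
    Fin.cons (chartAt (Cm n) (i z)) (Fin.cons (chartAt (Cm q) (π (i z))) finZeroElim)
  have ha : z ∈ (pull i (lin ![Bd.can n X.X, pull π (Bd.can q Y.X)] ![1, -1])).U a :=
    Fin.forall_fin_two.2 ⟨at_chart _, at_chart _⟩
  refine (Iff.intro (fun k => k a ha) fun k b hb => (hs.change b a z hb ha).trans_ne
    (mul_ne_zero ((Finset.prod_ne_zero_iff (s := Finset.univ)).2 fun c _ => zpow_ne_zero _
      ((Fin.forall_fin_two (p := fun c =>
      (![Bd.can n X.X, pull π (Bd.can q Y.X)] c).g (b c) (a c) (i z) ≠ 0)).2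
      ⟨isLB_can.ne_zero _ _ _ (hb 0) (ha 0), isLB_can.ne_zero _ _ _ (hb 1) (ha 1)⟩ c)) k)).trans
    ((JacH.det_ne _ _ _).trans ?_)
  exact forall_congr' fun v => imp_congr (Eq.congr_left (dfM_mulVec v))
    (imp_congr_left (Eq.congr_left (dfM_mulVec v)))

end Vale.Agent.P280Z.Sq
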