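import Vale.Agent.P280Z.Sq.Sk
import Vale.Agent.P280Z.Ma.Nsx
import Vale.Agent.P280Z.Co.Fp
import Vale.Agent.P281Z.Mf.Mod

/-!
# P280Z, block Sq: rows INJ and SF
-/

open scoped Manifold ContDiff Topology Matrix
open Set Filter Module
open Vale.Agent.P272.K Vale.Agent.P285.H281.FD Vale.Agent.P281Z
open Vale.Agent.P277Z (at_chart)

noncomputable section

namespace Vale.Agent.P280Z.Sq

namespace SfH

theorem surj {n p : ℕ} {V : Mf n} {W : Mf p} {f : V.X → W.X} {x : V.X} (h : Sbm n p f x) :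
    Function.Surjective (Df n p f x) := h _ _ (at_chart x) (at_chart (f x))

theorem cmp {n p q : ℕ} {V : Mf n} {W : Mf p} {Z : Mf q} {f : V.X → W.X} {g : W.X → Z.X}
    {k : V.X → Z.X} (hf : HolM n p f) (hg : HolM p q g) (hk : ∀ x, g (f x) = k x) (x : V.X)
    (v : Cm n) : Df p q g (f x) (Df n p f x v) = Df n q k x v := by
  obtain rfl : (fun x => g (f x)) = k := funext hk
  exact (congrArg (fun L : Cm n →L[ℂ] Cm q => L v) (df_comp (hg.at (f x)) (hf.at x) (at_chart x)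
    (at_chart (f x)) (at_chart (g (f x))))).symm

theorem rk {n p r : ℕ} {V : Mf n} {W : Mf p} {f : V.X → W.X} {x : V.X} (h : Sbm n p f x)
    (e : n = p + r) : finrank ℂ (LinearMap.ker (Df n p f x)) = r := by
  have h1 := LinearMap.finrank_range_add_finrank_ker (Df n p f x)
  rw [LinearMap.range_eq_top.2 (surj h), finrank_top, finrank_fin_fun, finrank_fin_fun] at h1
  omega

theorem fib {n m n' m' : ℕ} {V : Mf n} {W : Mf m} {V' : Mf n'} {W' : Mf m'} {f : V.X → W.X}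
    {g : W'.X → W.X} {f' : V'.X → W'.X} {g' : V'.X → V.X} (h : Cart f g f' g') (y : W'.X)
    (hc : IsConnected (f ⁻¹' {g y})) : IsConnected (f' ⁻¹' {y}) := by
  have hS : IsCompact (f' ⁻¹' {y}) := (isClosed_singleton.preimage h.sf'.hol.cont).isCompact
  have : CompactSpace (f' ⁻¹' {y}) := isCompact_iff_compactSpace.1 hS
  have hj : Topology.IsClosedEmbedding fun z : f' ⁻¹' {y} => g' z := by
    refine (h.hg'.cont.comp continuous_subtype_val).isClosedEmbedding fun z z' e => ?_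
    have e1 : f' z = y := z.2
    have e2 : f' z' = y := z'.2
    exact Subtype.ext ((h.uniq y (g' z) (by rw [h.comm, e1])).unique ⟨e1, rfl⟩ ⟨e2, e.symm⟩)
  have hr : (fun z : f' ⁻¹' {y} => g' z) '' univ = f ⁻¹' {g y} := by
    ext x
    refine ⟨fun ⟨z, _, e⟩ => ?_, fun hx => ?_⟩
    · have e1 : f' z = y := z.2
      change f x = g y
      rw [← e, h.comm, e1]
    · obtain ⟨z, ⟨e1, e2⟩, -⟩ := h.uniq y x (Eq.symm hx)
      exact ⟨⟨z, e1⟩, trivial, e2⟩
  obtain ⟨x, hx⟩ := hc.1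
  obtain ⟨z, ⟨e1, -⟩, -⟩ := h.uniq y x (Eq.symm hx)
  refine ⟨⟨z, e1⟩, isPreconnected_iff_preconnectedSpace.2 ⟨?_⟩⟩
  exact hj.isInducing.isPreconnected_image.1 (hr ▸ hc.2)

end SfH

open SfH

/-- row INJ -/
theorem inj : INJ := by
  intro T hT m n C Z φ hφ kC kZ hZ ⟨c, hc⟩ u hu
  obtain ⟨r, hr⟩ := Nat.exists_eq_add_of_le hc.le
  obtain ⟨w, hw⟩ := (hT.po.kah Z).1 kZ
  obtain ⟨om, hom⟩ := (hT.po.kah C).1 kC
  have hp : 0 < T.int C (T.pull hφ w ^ n * om ^ r) := by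
    refine hT.po.pos n r c (hT.po.pull hφ hw) hom hr.symm rfl ?_
    change n + finrank ℂ (LinearMap.ker (Df m n φ c)) ≤ m
    rw [rk hc hr, hr]
  refine hT.ho.pd Z kZ u fun v => ?_
  have d : T.Dg Z (0 + n) (T.pr Z n (u * v)) := by
    unfold CT.Dg
    rw [hT.rg.pr_pr, if_pos (zero_add n)]
  obtain ⟨a, a0, ha⟩ := (hT.ho.hl hw 0 n (by omega)).2 _ d
  obtain ⟨t, rfl⟩ := hT.rg.h0 Z hZ.toPreconnectedSpace a a0
  rw [mul_comm, ← Algebra.smul_def] at ha
  have h1 : t • T.pull hφ w ^ n = 0 := by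
    rw [← map_pow, ← map_smul, ha, hT.rg.pull_pr, map_mul, hu, zero_mul, map_zero]
  have h2 : t * T.int C (T.pull hφ w ^ n * om ^ r) = 0 := by
    rw [← smul_eq_mul, ← map_smul, ← smul_mul_assoc, h1, zero_mul, map_zero]
  have h3 : t = 0 := (mul_eq_zero.1 h2).resolve_right hp.ne'
  rw [← hT.rg.int_pr, ← ha, h3, zero_smul, map_zero]

/-- row SF -/
theorem sf_of (hI : INJ) : SF := by
  intro T hT n q X Y π hπ C hX kX hf hab ⟨c, hc⟩ u hu
  obtain ⟨d, hd⟩ := Nat.exists_eq_add_of_le (hπ.sbm (C.a c)).le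
  obtain ⟨Z, f', g', ct, sg, kZ, lf⟩ := P280Z.fp (n + d) π π (by omega) hπ hπ.hol
  obtain ⟨φ, hφ, hl⟩ := lf C.C C.a C.b C.sa.hol C.sb.hol hab
  have cZ : ConnectedSpace Z.X := connectedSpace_iff_univ.2
    (conn_pre ct.sf'.hol.cont (fun y => fib ct y (hf _)) isClosed_univ isConnected_univ)
  have sφ : Sbm C.m (n + d) φ c := by
    refine Sbm.of_chart (hφ.at c) (at_chart c) (at_chart (φ c)) fun t => ?_
    change ∃ v, Df C.m (n + d) φ c v = t
    have ea := cmp hφ ct.sf'.hol (fun z => (hl z).1) c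
    have eb := cmp hφ ct.hg' (fun z => (hl z).2) c
    have e1 := cmp ct.sf'.hol hπ.hol (k := fun z => π (f' z)) (fun _ => rfl) (φ c)
    have e2 := cmp ct.hg' hπ.hol (k := fun z => π (f' z)) ct.comm (φ c)
    obtain ⟨v, hv⟩ := surj (C.sa.sbm c) (Df (n + d) n f' (φ c) t)
    have k1 : Df (n + d) n g' (φ c) (t - Df C.m (n + d) φ c v) ∈ C.Dv c := by
      rw [hc, LinearMap.mem_ker, ← (hl c).2, e2, ← e1, map_sub, ea, hv, sub_self, map_zero]
    obtain ⟨v', k2, k3⟩ := k1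
    refine ⟨v + v', (sub_eq_zero.1 (ct.imm (φ c) _ ?_ ?_))⟩
    · rw [map_sub, ea, map_add, hv, LinearMap.mem_ker.1 k2, add_zero, sub_self]
    · rw [map_add, map_sub, map_add, eb v', k3, map_sub, add_sub_cancel, sub_self]
  have e : T.pull ct.sf'.hol u = T.pull ct.hg' u := by
    rw [← sub_eq_zero]
    refine hI T hT hφ C.kah (kZ kX kX) cZ ⟨c, sφ⟩ _ ?_
    rw [map_sub, ← hT.rg.pull_comp hφ ct.sf'.hol C.sa.hol fun z => (hl z).1.symm,
      ← hT.rg.pull_comp hφ ct.hg' C.sb.hol fun z => (hl z).2.symm, hu, sub_self]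
  obtain ⟨w, hw⟩ := (hT.po.kah X).1 kX
  have cY : ConnectedSpace Y.X :=
    Function.Surjective.connectedSpace (fun y => (hf y).1) hπ.hol.cont
  have g0 : T.Dg Y 0 (T.push π (w ^ d)) := by
    unfold CT.Dg
    rw [hT.pu.deg hπ d hd, zero_add, Ma.dg_pow hT (hT.po.deg hw)]
  obtain ⟨t, ht⟩ := hT.rg.h0 Y cY.toPreconnectedSpace _ g0
  have t0 : 0 < t := by
    obtain ⟨F, i, h, hi⟩ := Ma.fibre hT P280Z.fp hπ hd (π (C.a c))
    obtain ⟨z, -⟩ : C.a c ∈ range i := h.rng.symm ▸ rfl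
    rw [← hi _ _ ht, map_pow]
    exact Ma.kc_vol hT (Ma.kc_pull hT h.hol (fun z v hv => h.imm z _ _ (at_chart z) (at_chart _)
      (hv.trans (map_zero _).symm)) hw) z
  have b1 := hT.pu.bc ct (u * w ^ d)
  have b2 := hT.pu.bc ct (w ^ d)
  rw [map_mul (T.pull ct.hg'), ← e, mul_comm (T.pull ct.sf'.hol u), hT.pu.proj ct.sf', ← b2, ht,
    AlgHom.commutes, ← Algebra.smul_def] at b1
  refine ⟨t⁻¹ • T.push π (u * w ^ d), ?_⟩
  rw [map_smul, b1, smul_smul, inv_mul_cancel₀ t0.ne', one_smul]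

end Vale.Agent.P280Z.Sq
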