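import Vale.Agent.P280Z.Sq.Sk
import Vale.Agent.P280Z.Co.Fp
import Vale.Agent.P281Z.Mf.Fib
import Vale.Agent.P281Z.Sc.Bd

/-!
# P280Z, block Sq: toolbox
-/

open scoped Manifold ContDiff Topology
open Set Filter Function Module
open Vale.Agent.P272.K Vale.Agent.P285.H281.FD Vale.Agent.P281Z
open Vale.Agent.P277Z (at_chart)
open Vale.Agent.P277 (Bd.inv)
open Vale.Agent.P280Z.Gm (Fa)

noncomputable section

namespace Vale.Agent.P280Z.Sq

section df
variable {n p q : ℕ} {X Y Z : Type} [TopologicalSpace X] [ChartedSpace (Cm n) X]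
  [TopologicalSpace Y] [ChartedSpace (Cm p) Y] [TopologicalSpace Z] [ChartedSpace (Cm q) Z]
  {f f' : X → Y} {g : Y → Z} {x : X}

theorem Df_congr (h : ∀ᶠ y in 𝓝 x, f y = f' y) : Df n p f x = Df n p f' x := by
  unfold Df
  rw [df_congr h (at_chart x), h.self_of_nhds]

theorem Df_id (x : X) (v : Cm n) : Df n n (fun y : X => y) x v = v :=
  DFunLike.congr_fun (df_id_self (at_chart x)) v

theorem Df_const (x : X) (y : Y) : Df n p (fun _ : X => y) x = 0 := by
  ext v : 1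
  simp [Df, df]

theorem rk_ker (h : Sbm n p f x) : finrank ℂ (LinearMap.ker (Df n p f x)) + p = n := by
  have h1 := (Df n p f x).finrank_range_add_finrank_ker
  rw [(LinearMap.range_eq_top (f := Df n p f x)).2 (h _ _ (at_chart x) (at_chart _)),
    finrank_top] at h1
  simp only [finrank_fintype_fun_eq_card, Fintype.card_fin] at h1
  omega

theorem rk_rng (h : Imm n p f x) : finrank ℂ (LinearMap.range (Df n p f x)) = n :=
  (LinearMap.finrank_range_of_inj (f := Df n p f x) (h _ _ (at_chart x) (at_chart _))).trans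
    (by simp)

variable [IsManifold 𝓘(ℂ, Cm n) ω X] [IsManifold 𝓘(ℂ, Cm p) ω Y] [IsManifold 𝓘(ℂ, Cm q) ω Z]

theorem Df_comp (hg : HolA p q g (f x)) (hf : HolA n p f x) (v : Cm n) :
    Df n q (fun y => g (f y)) x v = Df p q g (f x) (Df n p f x v) :=
  DFunLike.congr_fun (df_comp hg hf (at_chart x) (at_chart _) (at_chart _)) v

theorem sbm_Df (hf : HolA n p f x) : Sbm n p f x ↔ Surjective (Df n p f x) :=
  ⟨fun h => h _ _ (at_chart x) (at_chart _), Sbm.of_chart hf (at_chart x) (at_chart _)⟩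

theorem imm_Df (hf : HolA n p f x) : Imm n p f x ↔ ∀ v, Df n p f x v = 0 → v = 0 :=
  ⟨fun h => (injective_iff_map_eq_zero (Df n p f x)).1 (h _ _ (at_chart x) (at_chart _)),
    fun h => Imm.of_chart hf (at_chart x) (at_chart _)
      ((injective_iff_map_eq_zero (Df n p f x)).2 h)⟩

theorem Sub.comp (hg : Sub p q g) (hf : Sub n p f) : Sub n q fun x => g (f x) :=
  ⟨hg.hol.comp hf.hol, fun x => (hg.sbm _).comp (hg.hol.at _) (hf.hol.at x) (hf.sbm x)⟩

theorem sub_id : Sub n n fun x : X => x := ⟨holM_id, sbm_id⟩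

theorem sub_open (hf : Sub n p f) : IsOpenMap f :=
  .of_nhds_le fun u => ((hf.sbm u).map_nhds (hf.hol.at u)).ge

/-- the tangent space of a fibre -/
theorem emb_rng {y : Z} (hf : Emb n p f (g ⁻¹' {y})) (hg : Sub p q g) (hd : p = q + n) (x : X) :
    LinearMap.range (Df n p f x) = LinearMap.ker (Df p q g (f x)) := by
  refine Submodule.eq_of_le_of_finrank_eq ?_ ?_
  · rintro _ ⟨v, rfl⟩
    rw [LinearMap.mem_ker, ← Df_comp (hg.hol.at _) (hf.hol.at x),
      show (fun x => g (f x)) = fun _ => y from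
        funext fun x => hf.rng.subset (mem_range_self x), Df_const]
    rfl
  · have := rk_ker (hg.sbm (f x))
    rw [rk_rng (hf.imm x)]
    omega

/-- the preimage of a closed connected set -/
theorem conn_pre (hf : Sub n p f) (hc : ∀ y, IsConnected (f ⁻¹' {y})) {A : Set Y}
    (h : IsClosed A) (hA : IsConnected A) : IsConnected (f ⁻¹' A) :=
  ((sub_open hf).isQuotientMap hf.hol.cont fun y => (hc y).1).isCoinducing
    |>.isConnected_preimage_of_isClosed hc h hA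

theorem conn_of (hf : Sub n p f) (hc : ∀ y, IsConnected (f ⁻¹' {y})) (h : ConnectedSpace Y) :
    ConnectedSpace X :=
  connectedSpace_iff_univ.2 (conn_pre hf hc isClosed_univ isConnected_univ)

end df

section cart
variable {n m n' m' : ℕ} {V : Mf n} {W : Mf m} {V' : Mf n'} {W' : Mf m'}
  {f : V.X → W.X} {g : W'.X → W.X} {f' : V'.X → W'.X} {g' : V'.X → V.X}

theorem cart_df (h : Cart f g f' g') (z : V'.X) (v : Cm n') :
    Df n m f (g' z) (Df n' n g' z v) = Df m' m g (f' z) (Df n' m' f' z v) := by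
  rw [← Df_comp (h.sf.hol.at _) (h.hg'.at z), funext h.comm, Df_comp (h.hg.at _) (h.sf'.hol.at z)]

/-- the tangent space of a fibre product -/
theorem cart_tan (h : Cart f g f' g') (z : V'.X) (v₁ : Cm m') (v₂ : Cm n)
    (k : Df m' m g (f' z) v₁ = Df n m f (g' z) v₂) :
    ∃ v, Df n' m' f' z v = v₁ ∧ Df n' n g' z v = v₂ := by
  obtain ⟨u, rfl⟩ := (sbm_Df (h.sf'.hol.at z)).1 (h.sf'.sbm z) v₁
  have h1 : (LinearMap.ker (Df n' m' f' z)).map (Df n' n g' z) = LinearMap.ker (Df n m f (g' z)) := by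
    refine Submodule.eq_of_le_of_finrank_eq ?_ ?_
    · rintro _ ⟨v, hv, rfl⟩
      rw [LinearMap.mem_ker, cart_df h, LinearMap.mem_ker.1 hv, map_zero]
    · have e1 := rk_ker (h.sf'.sbm z)
      have e2 := rk_ker (h.sf.sbm (g' z))
      have e3 := h.dim
      have e4 := LinearMap.finrank_range_of_inj
        (f := (Df n' n g' z).domRestrict (LinearMap.ker (Df n' m' f' z)))
        ((injective_iff_map_eq_zero _).2 fun w hw => Subtype.ext (h.imm z _ w.2 hw))
      rw [LinearMap.range_domRestrict] at e4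
      omega
  have h2 : v₂ - Df n' n g' z u ∈ LinearMap.ker (Df n m f (g' z)) := by
    rw [LinearMap.mem_ker, map_sub, cart_df h, k, sub_self]
  obtain ⟨w, h3, h4⟩ := h1.ge h2
  exact ⟨u + w, by rw [map_add, LinearMap.mem_ker.1 h3, add_zero], by rw [map_add, h4, add_sub_cancel]⟩

theorem cart_ext (h : Cart f g f' g') {z z' : V'.X} (h1 : f' z = f' z') (h2 : g' z = g' z') :
    z = z' :=
  (h.uniq (f' z') (g' z') (h.comm z').symm).unique ⟨h1, h2⟩ ⟨rfl, rfl⟩

theorem cart_sbm (h : Cart f g f' g') (z : V'.X) (k : Sbm m' m g (f' z)) : Sbm n' n g' z :=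
  (sbm_Df (h.hg'.at z)).2 fun v₂ =>
    let ⟨v₁, e⟩ := (sbm_Df (h.hg.at _)).1 k (Df n m f (g' z) v₂)
    (cart_tan h z v₁ v₂ e).imp fun _ k => k.2

theorem cart_symm (h : Cart f g f' g') (hg : Sub m' m g) : Cart g f g' f' :=
  ⟨by have := h.dim; omega, hg, ⟨h.hg', fun z => cart_sbm h z (hg.sbm _)⟩, h.sf.hol, h.sf'.hol,
    fun z => (h.comm z).symm, fun x y k => by simpa only [and_comm] using h.uniq y x k.symm,
    fun z v h1 h2 => h.imm z v h2 h1⟩

theorem cart_emb (h : Cart f g f' g') :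
    Emb n' (m' + n) (fun z => W'.pair V (f' z) (g' z)) (P281Z.fp g f) :=
  ⟨h.sf'.hol.pair h.hg', fun _ _ k => cart_ext h (pair_inj.1 k).1 (pair_inj.1 k).2,
    fun z => (imm_pair (h.sf'.hol.at z) (h.hg'.at z) (at_chart z) (at_chart _) (at_chart _)).2
      (h.imm z), ext fun _ => ⟨fun ⟨z, k⟩ => k ▸ (h.comm z).symm, fun k =>
        let ⟨z, k', _⟩ := h.uniq _ _ k
        ⟨z, prod_ext k'.1 k'.2⟩⟩⟩

theorem cart_lift (h : Cart f g f' g') {l : ℕ} {Z : Mf l} {a : Z.X → W'.X} {b : Z.X → V.X}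
    (ha : HolM l m' a) (hb : HolM l n b) (k : ∀ z, g (a z) = f (b z)) :
    ∃ c : Z.X → V'.X, HolM l n' c ∧ ∀ z, f' (c z) = a z ∧ g' (c z) = b z :=
  let ⟨c, c1, c2⟩ := (cart_emb h).lift (ha.pair hb) k
  ⟨c, c1, fun z => pair_inj.1 (c2 z)⟩

theorem cart_kah (h : Cart f g f' g') (h1 : V.Kah) (h2 : W'.Kah) : V'.Kah :=
  (cart_emb h).kah (h2.prod h1)

/-- the fibres of `f'` are the fibres of `f` -/
theorem cart_fib (h : Cart f g f' g') (y : W'.X) (k : IsConnected (f ⁻¹' {g y})) :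
    IsConnected (f' ⁻¹' {y}) := by
  have h1 : (fun z => W'.pair V (f' z) (g' z)) '' (f' ⁻¹' {y}) = W'.pair V y '' (f ⁻¹' {g y}) := by
    ext w
    constructor
    · rintro ⟨z, rfl, rfl⟩
      exact ⟨g' z, h.comm z, rfl⟩
    · rintro ⟨x, hx, rfl⟩
      obtain ⟨z, ⟨k1, k2⟩, -⟩ := h.uniq y x (Eq.symm hx)
      exact ⟨z, k1, pair_inj.2 ⟨k1, k2⟩⟩
  have h2 := k.image _ ((holM_const (n := n) y).pair holM_id).cont.continuousOn
  rw [← h1] at h2
  exact ⟨h2.1.of_image, (cart_emb h).cemb.isInducing.isPreconnected_image.1 h2.2⟩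

end cart

theorem lb_inv {n : ℕ} {V : Mf n} {L : Bd V.X} (h : IsLB n L) : IsLB n (Bd.inv L) :=
  ⟨h.isOpen, h.cover, fun i j e x he hi hj => (h.holo i j e x he hi hj).inv
    (by rw [he.left_inv]; exact h.ne_zero i j x hi hj),
    fun i j x hi hj => inv_ne_zero (h.ne_zero i j x hi hj),
    fun i j k x hi hj hk => (mul_inv _ _).symm.trans (congrArg _ (h.cocycle i j k x hi hj hk))⟩

theorem lb_K {n : ℕ} (V : Mf n) : IsLB n (Bd.can n V.X) := P277Z.Slc.isLB_can

theorem c1_inv {T : CT} (hT : T.OK) {n : ℕ} {V : Mf n} {L : Bd V.X} (h : IsLB n L) :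
    T.c1 V (Bd.inv L) = -T.c1 V L := by
  rw [eq_neg_iff_add_eq_zero, ← hT.c1.mul V _ _ (lb_inv h) h]
  refine hT.c1.triv V _ (fun i x => L.g i.2 i.1 x) (lb_mul (lb_inv h) h)
    ⟨fun i e x he hi => h.holo _ _ e x he hi.2 hi.1, fun i j x hi hj => ?_⟩
    fun x i hi => h.ne_zero _ _ x hi.2 hi.1
  change _ = (L.g i.1 j.1 x)⁻¹ * L.g i.2 j.2 x * L.g j.2 j.1 x
  rw [mul_assoc, h.cocycle _ _ _ x hi.2 hj.2 hj.1, ← h.cocycle _ _ _ x hi.2 hi.1 hj.1, mul_comm,
    mul_inv_cancel_right₀ (h.ne_zero _ _ x hi.1 hj.1)]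

theorem fa_iff {T : CT} (hT : T.OK) {n : ℕ} {V : Mf n} :
    Fano n V.X ↔ ConnectedSpace V.X ∧ Fa T V := by
  refine and_congr_right fun _ => ⟨fun h => ?_, fun h => hT.kp V _ (lb_inv (lb_K V)) ?_⟩
  · have := hT.c1.pos V _ (lb_inv (lb_K V)) h
    rwa [c1_inv hT (lb_K V)] at this
  · rwa [c1_inv hT (lb_K V)]

end Vale.Agent.P280Z.Sq
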