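import Vale.Agent.P280Z.Sq.Sk
import Vale.Agent.P280Z.Co.Vbl

/-!
# P280Z, block Sq, row ADJ: adjunction for a trivial normal bundle
-/

open scoped Manifold ContDiff Topology Matrix
open Set Filter Function
open Vale.Agent.P272.K Vale.Agent.P285.H281.FD Vale.Agent.P281Z
open Vale.Agent.P277Z (at_chart)

noncomputable section

namespace Vale.Agent.P280Z.Sq

namespace AdjH

variable {d q n : ℕ} {Z : Mf d} {X : Mf n} {j : Z.X → X.X}

theorem zero (hj : HolM d n j) {f : X.X → Cm q} {z : Z.X} (hf : HolA n q f (j z))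
    (h : ∀ᶠ z' in 𝓝 z, f (j z') = f (j z)) (w : Cm d) : Df n q f (j z) (Df d n j z w) = 0 := by
  have h1 := df_comp hf (hj.at z) (at_chart z) (at_chart _) (at_chart _)
  rw [df_congr h (at_chart z)] at h1
  exact DFunLike.congr_fun (h1.symm.trans (fderiv_const_apply _)) w

theorem exact (hj : HolM d n j) {f : X.X → Cm q} {z : Z.X} (hd : d + q = n) (hi : Imm d n j z)
    (hf : HolA n q f (j z)) (hs : Sbm n q f (j z)) (h : ∀ᶠ z' in 𝓝 z, f (j z') = f (j z)) :
    Function.Exact (Df d n j z) (Df n q f (j z)) := by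
  have h1 := (Df n q f (j z)).finrank_range_add_finrank_ker
  rw [(LinearMap.range_eq_top (f := Df n q f (j z))).2 (hs _ _ (at_chart _) (at_chart _)),
    finrank_top, Module.finrank_fin_fun, Module.finrank_fin_fun] at h1
  have h2 := LinearMap.finrank_range_of_inj (f := Df d n j z) (hi _ _ (at_chart z) (at_chart _))
  rw [Module.finrank_fin_fun] at h2
  refine LinearMap.exact_iff.2 (Submodule.eq_of_le_of_finrank_eq ?_ (by omega)).symm
  rintro _ ⟨w, rfl⟩
  exact zero hj hf h w

theorem hom (hj : HolM d n j) {f : Z.X → X.X → Cm q} (hf : ∀ z, HolA n q (f z) (j z))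
    (h : ∀ z, ∀ᶠ z' in 𝓝 z, f z' =ᶠ[𝓝 (j z')] f z) :
    IsHom d ((VB.tan n X.X).pull j) (VB.triv Z.X q) fun z => Df n q (f z) (j z) := fun z => by
  have he := at_chart (n := n) (j z)
  refine ⟨_, (), he, trivial, _,
    VblH.sm_comp (hj.at z) (VblH.sm_df (hf z) he (at_chart (f z (j z)))), ?_⟩
  filter_upwards [hj.cont.continuousAt.eventually (at_near he), h z,
    hj.cont.continuousAt.eventually (hf z).near] with y k1 k2 k3
  refine Eq.trans ?_ (congrArg (LinearMap.comp _) (Matrix.toLin'_toMatrix' _).symm)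
  exact congrArg ContinuousLinearMap.toLinearMap
    ((congrArg (ContinuousLinearMap.comp · _) (df_congr k2 (at_chart (j y)))).trans
      (df_comp (f := fun y => y) k3 (holM_id.at _) k1 (at_chart _) (at_chart _)).symm)

end AdjH

open AdjH in
/-- row ADJ -/
theorem adj : ADJ := fun T hT d q n Z X j hj f hd hi h => by
  have h1 : Ses d (VB.tan d Z.X) ((VB.tan n X.X).pull j) (VB.triv Z.X q) (Df d n j)
      fun z => Df n q (f z) (j z) :=
    ⟨vbl.tan Z, vbl.pull _ hj (vbl.tan X), vbl.triv Z q, vbl.df hj,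
      hom hj (fun z => (h z).1) fun z => (h z).2.2.2, fun z => hi z _ _ (at_chart z) (at_chart _),
      fun z => exact hj hd (hi z) (h z).1 (h z).2.1 (h z).2.2.1,
      fun z => (h z).2.1 _ _ (at_chart _) (at_chart _)⟩
  have h2 := hT.ch.ses Z h1 1
  rw [hT.ch.triv Z q 0, add_zero, hT.ch.pull hj _ (vbl.tan X), hT.ch.tan, hT.ch.tan, map_neg,
    neg_inj] at h2
  exact h2.symm

end Vale.Agent.P280Z.Sq
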