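import Vale.Agent.P280Z.Sq.Sk
import Vale.Agent.P280Z.Co.Fp

/-!
# P280Z, block Sq: row COMP, the composition of two correspondences
-/

open scoped Manifold ContDiff Topology
open Set Filter
open Vale.Agent.P272.K Vale.Agent.P285.H281.FD Vale.Agent.P281Z

noncomputable section

namespace Vale.Agent.P280Z.Sq

namespace CompH

/-- the preimage of a connected set under a map of compact spaces with connected fibres -/
theorem pre {A B : Type} [TopologicalSpace A] [TopologicalSpace B] [CompactSpace A] [T2Space B]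
    {f : A → B} (hf : Continuous f) (hc : ∀ y, IsConnected (f ⁻¹' {y})) {S : Set B}
    (hS : IsClosed S) (h : IsConnected S) : IsConnected (f ⁻¹' S) :=
  (hf.isClosedMap.isQuotientMap hf fun y => (hc y).nonempty).isCoinducing.isConnected_preimage_of_isClosed
    hc hS h

/-- the fibres of the two projections of a compact fibre product -/
theorem fib {A B C D : Type} [TopologicalSpace A] [TopologicalSpace B] [TopologicalSpace D]
    [CompactSpace D] [T2Space A] [T2Space B] {f : A → C} {g : B → C} {f' : D → B} {g' : D → A}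
    (h1 : Continuous f') (h2 : Continuous g') (hu : ∀ y x, g y = f x → ∃! z, f' z = y ∧ g' z = x)
    (hc : ∀ z, f (g' z) = g (f' z)) (y : B) (h : IsConnected (f ⁻¹' {g y})) :
    IsConnected (f' ⁻¹' {y}) := by
  have hk : IsCompact (f' ⁻¹' {y}) := (isClosed_singleton.preimage h1).isCompact
  have : CompactSpace (f' ⁻¹' {y}) := isCompact_iff_compactSpace.1 hk
  have hi : Function.Injective fun z : f' ⁻¹' {y} => g' z := fun z w e => Subtype.ext
    ((hu y (g' z) (by rw [hc, z.2])).unique ⟨z.2, rfl⟩ ⟨w.2, e.symm⟩)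
  have he : Topology.IsClosedEmbedding fun z : f' ⁻¹' {y} => g' z :=
    (h2.comp continuous_subtype_val).isClosedEmbedding hi
  have hr : range (fun z : f' ⁻¹' {y} => g' z) = f ⁻¹' {g y} := by
    ext x
    refine ⟨?_, fun hx => ?_⟩
    · rintro ⟨z, rfl⟩
      show f (g' z) = g y
      rw [hc, z.2]
    · obtain ⟨z, hz, -⟩ := hu y x (Eq.symm hx)
      exact ⟨⟨z, hz.1⟩, hz.2⟩
  rw [← hr, ← image_univ] at h
  refine isConnected_iff_connectedSpace.2 (connectedSpace_iff_univ.2 ⟨?_, ?_⟩)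
  · exact h.nonempty.of_image
  · exact he.isInducing.isPreconnected_image.1 h.isPreconnected

end CompH

theorem comp : COMP := by
  intro n X C C' ⟨x₀⟩
  obtain ⟨c₀, -, -⟩ := C.dg x₀
  have hn : n ≤ C.m := (C.sb.sbm c₀).le
  obtain ⟨V, f, g, h, hs, hk, -⟩ := fp (C'.m + C.m - n) C'.a C.b (by omega) C'.sa C.sb.hol
  have hf : ∀ y, IsConnected (f ⁻¹' {y}) := fun y =>
    CompH.fib h.sf'.hol.cont h.hg'.cont h.uniq h.comm y (C'.ca _)
  have hg : ∀ y, IsConnected (g ⁻¹' {y}) := fun y =>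
    CompH.fib h.hg'.cont h.sf'.hol.cont
      (fun y x e => by simpa only [and_comm] using h.uniq x y e.symm) (fun z => (h.comm z).symm) y
      (C.cb _)
  refine ⟨⟨_, V, fun z => C.a (f z), fun z => C'.b (g z),
    ⟨C.sa.hol.comp h.sf'.hol, fun z =>
      Sbm.comp (C.sa.hol.at _) (h.sf'.hol.at z) (C.sa.sbm _) (h.sf'.sbm z)⟩,
    ⟨C'.sb.hol.comp h.hg', fun z =>
      Sbm.comp (C'.sb.hol.at _) (h.hg'.at z) (C'.sb.sbm _) (hs C.sb.sbm z)⟩,
    hk C'.kah C.kah,
    fun x => CompH.pre h.sf'.hol.cont hf (isClosed_singleton.preimage C.sa.hol.cont) (C.ca x),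
    fun x => CompH.pre h.hg'.cont hg (isClosed_singleton.preimage C'.sb.hol.cont) (C'.cb x),
    fun x => ?_⟩, f, g, h, fun _ => rfl, fun _ => rfl⟩
  obtain ⟨c, h1, h2⟩ := C.dg x
  obtain ⟨c', h3, h4⟩ := C'.dg x
  obtain ⟨z, ⟨rfl, rfl⟩, -⟩ := h.uniq c c' (h2.trans h3.symm)
  exact ⟨z, h1, h4⟩

end Vale.Agent.P280Z.Sq
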