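import Vale.Agent.P280Z.Sq.Sk

/-!
# P280Z, block Sq: the row DIST
-/

open scoped Manifold ContDiff Topology Matrix
open Set Filter Module
open Vale.Agent.P272.K Vale.Agent.P285.H281.FD Vale.Agent.P281Z
open Vale.Agent.P277Z (at_chart)

noncomputable section

namespace Vale.Agent.P280Z.Sq

namespace DistH

section lin
variable {V W V' W' : Type} [AddCommGroup V] [Module ℂ V] [FiniteDimensional ℂ V]
  [AddCommGroup W] [Module ℂ W] [AddCommGroup V'] [Module ℂ V'] [FiniteDimensional ℂ V']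
  [AddCommGroup W'] [Module ℂ W']

theorem rk_map (β : V →ₗ[ℂ] W) {B : Submodule ℂ V} (h : LinearMap.ker β ≤ B) :
    finrank ℂ (B.map β) + finrank ℂ (LinearMap.ker β) = finrank ℂ B := by
  have h1 := LinearMap.finrank_range_add_finrank_ker (β.domRestrict B)
  rwa [LinearMap.range_domRestrict, LinearMap.ker_domRestrict,
    (Submodule.comapSubtypeEquivOfLe h).finrank_eq] at h1

theorem rk_ker {β : V →ₗ[ℂ] W} (h : Function.Surjective β) :
    finrank ℂ W + finrank ℂ (LinearMap.ker β) = finrank ℂ V := by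
  have h1 := LinearMap.finrank_range_add_finrank_ker β
  rwa [LinearMap.range_eq_top.2 h, finrank_top] at h1

theorem rk_tr {α β : V →ₗ[ℂ] W} (hα : Function.Surjective α) (hβ : Function.Surjective β)
    (A : Submodule ℂ W) : finrank ℂ ((A.comap α).map β) =
      finrank ℂ (A ⊔ (LinearMap.ker β).map α : Submodule ℂ W) := by
  have h1 := rk_map β (B := A.comap α ⊔ LinearMap.ker β) le_sup_right
  have h2 := rk_map α (B := A.comap α ⊔ LinearMap.ker β)
    ((LinearMap.ker_le_comap α).trans le_sup_left)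
  have h3 : (LinearMap.ker β).map β = ⊥ := by
    rw [eq_bot_iff]
    rintro _ ⟨v, hv, rfl⟩
    exact hv
  rw [Submodule.map_sup, h3, sup_bot_eq] at h1
  rw [Submodule.map_sup, Submodule.map_comap_eq_of_surjective hα] at h2
  have h4 := rk_ker hα
  have h5 := rk_ker hβ
  omega

theorem lift {A : V' →ₗ[ℂ] W'} {B : V' →ₗ[ℂ] V} {F : V →ₗ[ℂ] W} {G : W' →ₗ[ℂ] W}
    (hA : Function.Surjective A) (hF : Function.Surjective F) (hc : ∀ v, F (B v) = G (A v))
    (hi : ∀ v, A v = 0 → B v = 0 → v = 0)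
    (hd : finrank ℂ V' + finrank ℂ W = finrank ℂ V + finrank ℂ W') (u : W') (w : V)
    (e : G u = F w) : ∃ v, A v = u ∧ B v = w := by
  let R : LinearMap.ker A →ₗ[ℂ] LinearMap.ker F :=
    (B.comp (LinearMap.ker A).subtype).codRestrict _ fun v => by
      have h1 : A v.1 = 0 := v.2
      exact (hc v.1).trans (by rw [h1, map_zero])
  have h1 : Function.Injective R := (injective_iff_map_eq_zero _).2 fun v hv =>
    Subtype.ext (hi _ v.2 (congrArg Subtype.val hv))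
  have h2 : Function.Surjective R :=
    (LinearMap.injective_iff_surjective_of_finrank_eq_finrank (by
      have h3 := rk_ker hA
      have h4 := rk_ker hF
      omega)).1 h1
  obtain ⟨v₀, rfl⟩ := hA u
  obtain ⟨v₁, h3⟩ := h2 ⟨w - B v₀, by rw [LinearMap.mem_ker, map_sub, hc, e, sub_self]⟩
  have h4 : B v₁.1 = w - B v₀ := congrArg Subtype.val h3
  have h5 : A v₁.1 = 0 := v₁.2
  exact ⟨v₀ + v₁.1, by rw [map_add, h5, add_zero], by rw [map_add, h4, add_sub_cancel]⟩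

end lin

theorem Df_cmp {n p q : ℕ} {X : Mf n} {Y : Mf p} {Z : Mf q} {f : X.X → Y.X} {g : Y.X → Z.X}
    {k : X.X → Z.X} (hg : HolM p q g) (hf : HolM n p f) (e : ∀ x, k x = g (f x)) (x : X.X)
    (v : Cm n) : Df n q k x v = Df p q g (f x) (Df n p f x v) := by
  obtain rfl : k = fun x => g (f x) := funext e
  exact DFunLike.congr_fun
    (df_comp (hg.at _) (hf.at x) (at_chart x) (at_chart _) (at_chart _)) v

theorem Df_onto {n p : ℕ} {X : Mf n} {Y : Mf p} {f : X.X → Y.X} (h : Sub n p f) (x : X.X) :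
    Function.Surjective (Df n p f x) := h.sbm x _ _ (at_chart x) (at_chart _)

variable {n : ℕ} {X : Mf n}

theorem dv_cmp {C C' E : Cor X} {f : E.C.X → C.C.X} {g : E.C.X → C'.C.X}
    (h : Cor.Cmp C C' E f g) (z : E.C.X) : E.Dv z =
      ((C.Dv (f z)).comap (Df C'.m n C'.a (g z))).map (Df C'.m n C'.b (g z)) := by
  have ha := Df_cmp C.sa.hol h.cart.sf'.hol h.a z
  have hb := Df_cmp C'.sb.hol h.cart.hg' h.b z
  have hc : ∀ v, Df C'.m n C'.a (g z) (Df E.m C'.m g z v) =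
      Df C.m n C.b (f z) (Df E.m C.m f z v) := fun v =>
    (Df_cmp C'.sa.hol h.cart.hg' (fun _ => rfl) z v).symm.trans
      (Df_cmp C.sb.hol h.cart.sf'.hol h.cart.comm z v)
  refine le_antisymm ?_ ?_
  · rintro _ ⟨v, hv, rfl⟩
    exact ⟨Df E.m C'.m g z v, ⟨Df E.m C.m f z v, (ha v).symm.trans hv, (hc v).symm⟩, (hb v).symm⟩
  · rintro _ ⟨w, ⟨u, hu, e⟩, rfl⟩
    obtain ⟨v, rfl, rfl⟩ := lift (Df_onto h.cart.sf' z) (Df_onto C'.sa (g z)) hc (h.cart.imm z)
      (by simpa using h.cart.dim) u w e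
    exact ⟨v, (ha v).trans hu, hb v⟩

theorem rk_swap (C : Cor X) (c : C.C.X) : finrank ℂ (C.swap.Dv c) = finrank ℂ (C.Dv c) := by
  have h := rk_tr (Df_onto C.sa c) (Df_onto C.sb c) ⊥
  rw [bot_sup_eq] at h
  exact h.symm

theorem ex_cmp (hC : COMP) {S : Cor X → Prop} (hS : Cls S) {C C' : Cor X} (h : S C) (h' : S C')
    {c : C.C.X} {c' : C'.C.X} (e : C.b c = C'.a c') : ∃ E, S E ∧ ∃ z, E.b z = C'.b c' ∧
      E.Dv z = ((C.Dv c).comap (Df C'.m n C'.a c')).map (Df C'.m n C'.b c') := by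
  obtain ⟨E, f, g, hE⟩ := hC C C' ⟨C.b c⟩
  obtain ⟨z, ⟨rfl, rfl⟩, -⟩ := hE.cart.uniq c c' e
  exact ⟨E, hS.cmp C C' E f g h h' hE, z, hE.b z, dv_cmp hE z⟩

end DistH

open DistH in
theorem dist_of (hC : COMP) (hR : RNK) : DIST := by
  classical
  intro T hT n X S hX hK hS
  let P : ℕ → Prop := fun k => ∃ C, S C ∧ ∃ c, k ≤ finrank ℂ (C.Dv c)
  obtain ⟨C₁, hC₁⟩ := hS.ne
  obtain ⟨x₁⟩ : Nonempty X.X := inferInstance
  obtain ⟨c₁, -⟩ := C₁.dg x₁
  obtain ⟨C₀, hC₀, h0⟩ : P (Nat.findGreatest P n) :=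
    Nat.findGreatest_spec (Nat.zero_le n) ⟨C₁, hC₁, c₁, Nat.zero_le _⟩
  have top : ∀ C, S C → ∀ c, finrank ℂ (C.Dv c) ≤ Nat.findGreatest P n := fun C h c =>
    Nat.le_findGreatest (by simpa using (C.Dv c).finrank_le) ⟨C, h, c, le_rfl⟩
  generalize Nat.findGreatest P n = d at h0 top
  choose s hs hs' using hR T hT C₀ d hX hK h0
  have rk : ∀ x, finrank ℂ (C₀.swap.Dv (s x)) = d := fun x =>
    (rk_swap C₀ (s x)).trans (le_antisymm (top C₀ hC₀ _) (hs' x))
  have le : ∀ E, S E → ∀ z, E.Dv z ≤ C₀.swap.Dv (s (E.b z)) := fun E hE z => by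
    obtain ⟨E', h1, z', -, h2⟩ := ex_cmp hC hS hE hC₀ (c := z) (c' := s (E.b z)) (hs _).symm
    have h3 := top E' h1 z'
    rw [h2, rk_tr (Df_onto C₀.sa _) (Df_onto C₀.sb _), ← rk (E.b z)] at h3
    exact le_sup_left.trans (Submodule.eq_of_le_of_finrank_le le_sup_right h3).ge
  have inv : ∀ C, S C → ∀ c v, Df C.m n C.a c v ∈ C₀.swap.Dv (s (C.a c)) →
      Df C.m n C.b c v ∈ C₀.swap.Dv (s (C.b c)) := fun C h c v hv => by
    obtain ⟨E, h1, z, h2, h3⟩ := ex_cmp hC hS (hS.swap _ hC₀) h (c := s (C.a c)) (c' := c) (hs _)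
    have h4 := le E h1 z
    rw [h2, h3] at h4
    exact h4 ⟨v, hv, rfl⟩
  exact ⟨d, fun x => C₀.swap.Dv (s x), hS, rk,
    fun C h c v => ⟨inv C h c v, inv C.swap (hS.swap _ h) c v⟩, C₀, hC₀, fun x => ⟨s x, hs x,
      Submodule.eq_of_le_of_finrank_le (le C₀ hC₀ _) ((rk _).le.trans (hs' x))⟩⟩

end Vale.Agent.P280Z.Sq
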