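import Vale.Agent.P280Z.Sq.Sk
import Vale.Agent.P281Z.Mf.Loc

/-!
# P280Z, block Sq: rows FAC and PLQ
-/

open scoped Manifold ContDiff Topology Matrix
open Set Filter
open Vale.Agent.P272.K Vale.Agent.P285.H281.FD Vale.Agent.P281Z
open Vale.Agent.P277Z (Hol at_chart)

noncomputable section

namespace Vale.Agent.P280Z.Sq

namespace FacH

variable {n p q : ℕ} {X Y Z : Type} [TopologicalSpace X] [ChartedSpace (Cm n) X]
  [TopologicalSpace Y] [ChartedSpace (Cm p) Y] [TopologicalSpace Z] [ChartedSpace (Cm q) Z]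
  [IsManifold 𝓘(ℂ, Cm n) ω X] [IsManifold 𝓘(ℂ, Cm p) ω Y] [IsManifold 𝓘(ℂ, Cm q) ω Z]
  {f : X → Y} {g : Y → Z} {x : X}

theorem cmp (hg : HolA p q g (f x)) (hf : HolA n p f x) (v : Cm n) :
    Df n q (fun x => g (f x)) x v = Df p q g (f x) (Df n p f x v) :=
  DFunLike.congr_fun (df_comp hg hf (at_chart _) (at_chart _) (at_chart _)) v

omit [IsManifold 𝓘(ℂ, Cm n) ω X] [IsManifold 𝓘(ℂ, Cm p) ω Y] in
theorem cst (h : ∀ᶠ y in 𝓝 x, f y = f x) (v : Cm n) : Df n p f x v = 0 := by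
  have k := df_congr (e' := chartAt (Cm p) (f x)) h (at_chart (n := n) x)
  refine (DFunLike.congr_fun k v).trans ?_
  simp [df]

theorem holA_of {F : X → Cm p} (h : AnV n F x) : HolA n p F x :=
  .of_hol h.cont (at_chart _) h.hol

theorem fac1 {l : ℕ} {Z : Type} [TopologicalSpace Z] [ChartedSpace (Cm l) Z]
    [IsManifold 𝓘(ℂ, Cm l) ω Z] (f : Z → Y) (g : Z → Cm q) (z : Z) (hf : HolA l p f z)
    (hs : Sbm l p f z) (hg : HolA l q g z)
    (h : ∀ᶠ w in 𝓝 z, ∀ v, Df l p f w v = 0 → Df l q g w v = 0) :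
    ∃ γ : Y → Cm q, HolA p q γ (f z) ∧ ∀ᶠ w in 𝓝 z, γ (f w) = g w := by
  have he' := at_chart (n := p) (f z)
  set c := chartAt (Cm p) (f z)
  obtain ⟨Θ, h1, h2, h3, h4⟩ := exists_co ((sbm_iff_ind hf he').1 hs) (d := l - p)
    (by simpa using Nat.add_sub_cancel' hs.le)
    ((hf.cont.eventually (at_near he')).and (hf.near.and (hg.near.and h)))
  have h5 : (c (f z), (Θ z).2) = Θ z := Prod.ext (h4 z h2).symm rfl
  have h6 : AnV p (fun y => (c y, (Θ z).2)) (f z) := (anV_chart he').prod (anV_const _ _)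
  have h7 : (c (f z), (Θ z).2) ∈ Θ.target := h5 ▸ Θ.map_source h2
  have h8 : Θ.symm (c (f z), (Θ z).2) = z := (congrArg Θ.symm h5).trans (Θ.left_inv h2)
  obtain ⟨r, hr, hb⟩ := Metric.mem_nhds_iff.1 (Θ.open_target.mem_nhds (Θ.map_source h2))
  have key : ∀ s ∈ Metric.ball (Θ z).1 r, ∀ u ∈ Metric.ball (Θ z).2 r,
      g (Θ.symm (s, u)) = g (Θ.symm (s, (Θ z).2)) := fun s hs u hu => by
    have m : ∀ u ∈ Metric.ball (Θ z).2 r, (s, u) ∈ Θ.target := fun u hu =>
      hb (by rw [← ball_prod_same]; exact ⟨hs, hu⟩)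
    have a : ∀ u ∈ Metric.ball (Θ z).2 r, HolA (l - p) l (fun u => Θ.symm (s, u)) u :=
      fun u hu => h1.holA ((anV_const _ _).prod (anV_chart (at_chart u))) (m u hu)
    have b : ∀ u ∈ Metric.ball (Θ z).2 r, c (f (Θ.symm (s, u))) = s := fun u hu =>
      (h4 _ (Θ.map_target (m u hu))).symm.trans (congrArg Prod.fst (Θ.right_inv (m u hu)))
    refine Metric.isOpen_ball.is_const_of_fderiv_eq_zero (𝕜 := ℂ)
      (f := fun u => g (Θ.symm (s, u))) (convex_ball _ _).isPreconnected (fun u hu => ?_)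
      (fun u hu => ContinuousLinearMap.ext fun v => ?_) hu (Metric.mem_ball_self hr)
    · exact ((HolA.cmp (f := fun u => Θ.symm (s, u)) (h3 (Θ.map_target (m u hu))).2.2.1
        (a u hu)).an (at_chart _) (at_chart _)).differentiableAt.differentiableWithinAt
    · obtain ⟨k1, k2, k3, k4⟩ := h3 (Θ.map_target (m u hu))
      refine (cmp (f := fun u => Θ.symm (s, u)) k3 (a u hu) v).trans
        (k4 _ ((cmp (f := fun u => Θ.symm (s, u)) k2 (a u hu) v).symm.trans (cst ?_ v)))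
      filter_upwards [Metric.isOpen_ball.mem_nhds hu] with u' hu'
      exact c.injOn (h3 (Θ.map_target (m u' hu'))).1.2 k1.2 ((b u' hu').trans (b u hu).symm)
  refine ⟨fun y => g (Θ.symm (c y, (Θ z).2)), HolA.cmp (h8.symm ▸ hg) (h1.holA h6 h7), ?_⟩
  filter_upwards [Θ.open_source.mem_nhds h2,
    (Θ.continuousAt h2).eventually (Metric.ball_mem_nhds _ hr)] with w k1 k2
  have k3 := key _ ((le_max_left _ _).trans_lt k2) _ ((le_max_right _ _).trans_lt k2)
  rw [Prod.mk.eta, Θ.left_inv k1, h4 w k1] at k3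
  exact k3.symm

end FacH

open FacH

/-- row FAC -/
theorem fac : FAC := by
  refine ⟨fun f g z => fac1 f g z, fun {l q Z} g z hg h => ?_⟩
  obtain ⟨γ, -, k⟩ := fac1 (p := 0) (fun _ => (0 : Cm 0)) g z ((holM_const _).at z)
    (fun _ _ _ _ v => ⟨0, Subsingleton.elim _ _⟩) hg (h.mono fun w hw v _ => by rw [hw]; rfl)
  exact k.mono fun w hw => hw.symm.trans k.self_of_nhds

/-- row PLQ -/
theorem plq : PLQ := by
  intro l n q Z X g h z hg hh hs hk hc
  obtain ⟨Θ, h1, h2, -, h4⟩ := exists_co ((sbm_iff_ind hh (at_chart _)).1 hs) (d := n - q)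
    (by simpa using Nat.add_sub_cancel' hs.le) univ_mem
  have h4' : ∀ y ∈ Θ.source, (Θ y).1 = h y := h4
  have ht : HolA n (n - q) (fun y => (Θ y).2) (g z) :=
    holA_of ((h1.an _ h2).cmp (G := Prod.snd) analyticAt_snd)
  have h5 : (h (g z), (Θ (g z)).2) = Θ (g z) := Prod.ext (h4' _ h2).symm rfl
  have h6 : AnV (n - q) (fun u : Cm (n - q) => (h (g z), u)) (Θ (g z)).2 :=
    (anV_const _ _).prod (anV_chart (at_chart _))
  have h7 : (h (g z), (Θ (g z)).2) ∈ Θ.target := h5 ▸ Θ.map_source h2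
  have h8 : Θ.symm (h (g z), (Θ (g z)).2) = g z := (congrArg Θ.symm h5).trans (Θ.left_inv h2)
  have a := h1.holA h6 h7
  have m := h6.cont.eventually (Θ.open_target.mem_nhds h7)
  have sb : Sbm l (n - q) (fun w => (Θ (g w)).2) z := by
    refine .of_chart (ht.cmp hg) (at_chart _) (at_chart _) fun v => ?_
    have e1 := cmp (h8.symm ▸ hh) a v
    have e2 := cmp (h8.symm ▸ ht) a v
    rw [cst (m.mono fun u hu => ((h4' _ (Θ.map_target hu)).symm.trans
      (congrArg Prod.fst (Θ.right_inv hu))).trans (congrArg h h8.symm))] at e1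
    have e3 : Df (n - q) (n - q) (fun u => (Θ (Θ.symm (h (g z), u))).2) (Θ (g z)).2 v = v := by
      have k := df_congr (e' := chartAt (Cm (n - q)) (Θ (g z)).2)
        (m.mono fun u hu => congrArg Prod.snd (Θ.right_inv hu)) (at_chart (n := n - q) _)
      exact (DFunLike.congr_fun (k.trans (df_id_self (at_chart _))) v)
    rw [e3] at e2
    generalize Df (n - q) n (fun u => Θ.symm (h (g z), u)) (Θ (g z)).2 v = ξ at e1 e2
    rw [h8] at e1 e2
    obtain ⟨w, hw⟩ := hk e1.symm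
    exact ⟨w, (cmp ht hg w).trans (hw.symm ▸ e2.symm)⟩
  filter_upwards [Θ.open_source.mem_nhds h2, ht.cont.eventually (sb.ev (ht.cmp hg)
    (hc.and (hg.cont.eventually (Θ.open_source.mem_nhds h2))))] with y k1 ⟨w, ⟨k2, k3⟩, k4⟩ k5
  exact ⟨w, Θ.injOn k3 k1 (Prod.ext
    ((h4' _ k3).trans (k2.trans (k5.symm.trans (h4' _ k1).symm))) k4)⟩

end Vale.Agent.P280Z.Sq
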