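import Vale.Agent.P280Z.Sq.Api

/-!
# P280Z, block Sq: the fibres of the quotients
-/

open scoped Manifold ContDiff Topology
open Set Filter Function
open Vale.Agent.P272.K Vale.Agent.P285.H281.FD Vale.Agent.P281Z
open Vale.Agent.P277Z (at_chart)
open Vale.Agent.P280Z.Gm (HRR Fa)

noncomputable section

namespace Vale.Agent.P280Z.Sq

theorem algm_inj {T : CT} (hT : T.OK) {n : ℕ} {V : Mf n} (h : V.Kah) (x : V.X) :
    Injective (algebraMap ℝ (T.H V)) := by
  obtain ⟨w, hw⟩ := (hT.po.kah V).1 h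
  have k := hT.po.pos 0 n x hw hw (zero_add _) rfl (by simp)
  have : Nontrivial (T.H V) := nontrivial_of_ne (w ^ 0 * w ^ n) 0 fun c => by
    rw [c, map_zero] at k
    exact k.false
  exact (algebraMap ℝ _).injective

theorem fib_of (hA : ADJ) (hR : RES) (hD : DGL) (hQ : QJ) {T : CT} (hT : T.OK) (hH : HRR T)
    {n ρ : ℕ} {X : Mf n} {F : Fin ρ → Pf X} {l : Fin ρ → T.H X →ₗ[ℝ] ℝ} (hX : Fano n X.X)
    (B : Bas T F l) (J : Set (Fin ρ)) {q d : ℕ} (Y : Mf q) (π : X.X → Y.X) (Q : Qt T F J Y π)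
    (hn : n = q + d) (y : Y.X) (Z : Mf d) (i : Z.X → X.X) (hi : Emb d n i (π ⁻¹' {y})) :
    Fib T F l J hi.hol := by
  have cZ : ConnectedSpace Z.X := hi.conn.2 (Q.conn y)
  have can := hA T hT Z X i hi.hol (fun _ x => chartAt (Cm q) y (π x)) (by omega) hi.imm fun z => by
    have hc : At (chartAt (Cm q) y) (π (i z)) := (hi.fib z).symm ▸ at_chart y
    have h1 : HolA n q (fun x => chartAt (Cm q) y (π x)) (i z) :=
      HolA.cmp (g := chartAt (Cm q) y) (chart_contMDiffAt hc) (Q.sub.hol.at _)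
    exact ⟨h1, .of_chart h1 (at_chart _) (at_chart _) (Q.sub.sbm _ _ _ (at_chart _) hc),
      .of_forall fun z' => by rw [hi.fib, hi.fib], .of_forall fun _ => .rfl⟩
  have fano : Fano d Z.X := (fa_iff hT).2 ⟨cZ, by
    unfold Fa
    rw [can, ← map_neg]
    exact hT.po.mono (hT.po.pull hi.hol ((fa_iff hT).1 hX).2) fun z v hv =>
      (imm_Df (hi.hol.at z)).1 (hi.imm z) v hv⟩
  choose G κ u g1 g2 g3 using fun j : J =>
    let ⟨g, h1, h2⟩ := Q.fac j j.2
    hR T hT (F j) π g y i hi hn Q.sub h1 h2 cZ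
  choose l' hl using fun j : J => (hD T hT (G j)).1
  have ch : ∀ x x', Ch G univ x x' := fun x x' => by
    have k : ∀ a b, Ch F J a b → ∀ x x', i x = a → i x' = b → Ch G univ x x' := fun a b h => by
      induction h with
      | rel a b h =>
        rintro x x' rfl rfl
        obtain ⟨j, j1, j2⟩ := h
        exact .rel _ _ ⟨⟨j, j1⟩, trivial, g3 _ _ _ j2⟩
      | refl a => exact fun x x' h h' => hi.inj (h.trans h'.symm) ▸ .refl _
      | symm a b _ ih => exact fun x x' h h' => .symm _ _ (ih x' x h' h)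
      | trans a b c h1 _ ih ih' =>
        rintro x x' rfl rfl
        obtain ⟨w, rfl⟩ := hi.ex (y := b) (((Q.rel _ _).2 h1).symm.trans (hi.fib x))
        exact .trans _ _ _ (ih x w rfl rfl) (ih' w x' rfl rfl)
    exact k _ _ ((Q.rel _ _).1 ((hi.fib x).trans (hi.fib x').symm)) x x' rfl rfl
  refine ⟨fano, can, G, l', fun j => ⟨_, _, g1 j⟩, fun j => (B.pol j).elim fun η h => ⟨_, g2 j η h⟩,
    hl, fun j a ha => ?_, fun b hb h => ?_, ch⟩
  · refine algm_inj hT (G j).kK ((G j).p (G j).cU.toNonempty.some) ?_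
    rw [← hl j _ (by unfold CT.Dg; rw [← hT.rg.pull_pr, ha]), Pf.ph,
      ← hT.rg.pull_comp (G j).se.hol hi.hol (hi.hol.comp (G j).se.hol) fun _ => rfl,
      hT.rg.pull_comp (g1 j).cp.hg' (F j).se.hol _ fun z => ((g1 j).ce.comm z).symm,
      ← hT.pu.bc (g1 j).cp, ← Pf.ph, B.deg j a ha, AlgHom.commutes]
  · obtain ⟨q', Y', π', Q'⟩ := hQ T hT hH G univ fano
    obtain ⟨b', rfl⟩ := Q'.s4 b fun j _ => by rw [hl j b hb, h j, map_zero]
    rw [← hb, ← hT.rg.pull_pr]
    refine hT.rg.van _ 1 (fun x => ?_) _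
    rw [Df_congr (f' := fun _ => π' x) (.of_forall fun x' => (Q'.rel _ _).2 (ch x' x)), Df_const]
    simp

end Vale.Agent.P280Z.Sq
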