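import Vale.Agent.P280Z.Sq.Sk
import Vale.Agent.P281Z.Mf.Loc

/-!
# P280Z, block Sq: all the transports are given by one correspondence (row GERM)
-/

open scoped Manifold ContDiff Topology
open Set Filter
open Vale.Agent.P272.K Vale.Agent.P285.H281.FD Vale.Agent.P281Z
open Vale.Agent.P277Z (Hol Nz gen at_chart gen_of_nhds)

noncomputable section

namespace Vale.Agent.P280Z.Sq

namespace GermH

variable {n q : ℕ} {X : Mf n} {y : X.X}

theorem hol_co {f : X.X → Cm q} (h : HolA n q f y) (j : Fin q) : Hol n (fun z => f z j) y :=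
  h.hol (hol_chart (at_chart (f y)) j)

/-- a holomorphic map which is pointwise one of finitely many holomorphic maps -/
theorem one_of {ι : Type} (t : Finset ι) {f : X.X → Cm q} {g : ι → X.X → Cm q}
    (hf : HolA n q f y) (hg : ∀ i ∈ t, HolA n q (g i) y)
    (h : ∀ᶠ z in 𝓝 y, ∃ i ∈ t, f z = g i z) : ∃ i ∈ t, ∀ᶠ z in 𝓝 y, f z = g i z := by
  by_contra k
  have h1 : ∀ i ∈ t, ∀ᶠ z in gen {y}, f z ≠ g i z := fun i hi => by
    obtain ⟨j, hj⟩ : ∃ j, Nz (fun z => f z j - g i z j) y := by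
      by_contra k'
      refine k ⟨i, hi, (eventually_all.2 fun j => not_not.1 fun l => k' ⟨j, l⟩).mono fun z hz => ?_⟩
      exact funext fun j => sub_eq_zero.1 (hz j)
    exact (hj.gen ((hol_co hf j).sub (hol_co (hg i hi) j))).mono fun z hz e => hz (by
      rw [e, sub_self])
  obtain ⟨z, h2, i, hi, h3⟩ := (((eventually_all_finset t).2 h1).and (gen_of_nhds h)).exists
  exact h2 i hi h3

end GermH

open GermH in
/-- **row GERM** -/
theorem germ_of (hT : TRX) : GERM := by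
  rintro n d q X S D hD C hC _ _ h f hh ⟨C', hS, c', rfl, rfl, hf⟩
  obtain ⟨t1, t2, -⟩ := hT (q := q) S D hD
  have ha := C.sa.hol.cont
  have hb := C.sb.hol.cont
  have hK : IsCompact {c | C.a c = C'.a c' ∧ C.b c = C'.b c'} :=
    ((isClosed_eq ha continuous_const).inter (isClosed_eq hb continuous_const)).isCompact
  choose g hg using fun c : {c | C.a c = C'.a c' ∧ C.b c = C'.b c'} =>
    t1 C hC.1 c h (c.2.1.symm ▸ hh)
  obtain ⟨t, ht⟩ := hK.elim_nhds_subcover'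
    (fun c hc => interior {z | g ⟨c, hc⟩ (C.b z) = h (C.a z)})
    fun c hc => interior_mem_nhds.2 (hg ⟨c, hc⟩)
  have h1 : IsClosed ((fun z => (C.a z, C.b z)) ''
      (⋃ c ∈ t, interior {z | g c (C.b z) = h (C.a z)})ᶜ) :=
    ((isOpen_biUnion fun _ _ => isOpen_interior).isClosed_compl.isCompact.image
      (ha.prodMk hb)).isClosed
  have h2 := ((C'.sa.hol.cont.prodMk C'.sb.hol.cont).tendsto c').eventually
    (h1.isOpen_compl.mem_nhds fun ⟨z, k1, k2⟩ => k1 (ht (Prod.ext_iff.1 k2)))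
  have h3 : ∀ᶠ y in 𝓝 (C'.b c'), ∃ c ∈ t, f y = g c y := by
    filter_upwards [(C'.sb.sbm c').ev (C'.sb.hol c') (h2.and hf)]
    rintro _ ⟨z, ⟨k1, k2⟩, rfl⟩
    obtain ⟨w, k3, k4⟩ := hC.2 _ _ ⟨C', hS, z, rfl, rfl⟩
    obtain ⟨c, hc, k5⟩ := mem_iUnion₂.1 (not_not.1 fun k => k1 ⟨w, k, Prod.ext k3 k4⟩)
    exact ⟨c, hc, by rw [k2, ← k3, ← k4]; exact (interior_subset k5).symm⟩
  obtain ⟨c, -, h4⟩ := one_of t (t2 C' hS c' h f hh hf).hol
    (fun c _ => c.2.2 ▸ (t2 C hC.1 c h _ (c.2.1.symm ▸ hh) (hg c)).hol) h3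
  refine ⟨c, c.2.1, c.2.2, ?_⟩
  filter_upwards [hg c, (hb.tendsto' _ _ c.2.2).eventually h4] with z k1 k2 using k2.trans k1

end Vale.Agent.P280Z.Sq
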