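import Vale.Agent.P280Z.Mp.Quo
import Vale.Agent.P280Z.Co.Defs
import Vale.Agent.P281Z.Mf.Sub

/-!
# P280Z, block Sq: the covering space of a locally finite system of germs
-/

open scoped Manifold ContDiff Topology
open Set Filter Function
open Vale.Agent.P272.K Vale.Agent.P281Z
open Vale.Agent.P277Z (at_chart trans_an)

noncomputable section

namespace Vale.Agent.P280Z.Sq

theorem covb {d : ℕ} (L : Mf d) {G : Type} (ok : L.X → G → Prop) (ev : L.X → G → G → Prop)
    (e1 : ∀ y, Equivalence (ev y)) (o1 : ∀ y g, ok y g → ∀ᶠ y' in 𝓝 y, ok y' g)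
    (o2 : ∀ y g g', ev y g g' → ∀ᶠ y' in 𝓝 y, ev y' g g')
    (o3 : ∀ y g g', ok y g → ok y g' → (∃ᶠ y' in 𝓝 y, ev y' g g') → ev y g g')
    (fi : ∀ y, ∃ S : Set G, S.Finite ∧ (∀ g ∈ S, ok y g) ∧
      ∀ᶠ y' in 𝓝 y, ∀ g, ok y' g → ∃ s ∈ S, ev y' g s) :
    ∃ (E : Mf d) (q : E.X → L.X) (lab : E.X → G), Sub d d q ∧ (∀ v, ok (q v) (lab v)) ∧
      (∀ v, ∀ᶠ w in 𝓝 v, ev (q w) (lab w) (lab v)) ∧
      (∀ y g, ok y g → ∃ v, q v = y ∧ ev y (lab v) g) ∧
      ∀ v w, q v = q w → ev (q v) (lab v) (lab w) → v = w := by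
  classical
  let _ : TopologicalSpace G := ⊥
  have _ : DiscreteTopology G := ⟨rfl⟩
  let X : Type := {p : L.X × G // ok p.1 p.2}
  let s : Setoid X := ⟨fun p p' => p.1.1 = p'.1.1 ∧ ev p.1.1 p.1.2 p'.1.2,
    fun p => ⟨rfl, (e1 _).refl _⟩, fun h => ⟨h.1.symm, h.1 ▸ (e1 _).symm h.2⟩,
    fun h h' => ⟨h.1.trans h'.1, (e1 _).trans h.2 (h.1 ▸ h'.2)⟩⟩
  let π : X → Quotient s := Quotient.mk s
  have πc : Continuous π := continuous_quotient_mk'
  have πs : Surjective π := Quotient.mk_surjective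
  have πe : ∀ x y, π x = π y ↔ x.1.1 = y.1.1 ∧ ev x.1.1 x.1.2 y.1.2 := fun _ _ => Quotient.eq
  have c1 : Continuous fun p : X => p.1.1 := continuous_subtype_val.fst
  have c2 : ∀ p : X, ∀ᶠ p' in 𝓝 p, p'.1.2 = p.1.2 := fun p =>
    continuous_subtype_val.snd.continuousAt.eventually (p := fun g => g = p.1.2)
      ((isOpen_discrete {p.1.2}).mem_nhds rfl)
  let σ : X → L.X → X := fun p y => if h : ok y p.1.2 then ⟨(y, p.1.2), h⟩ else p
  have s1 : ∀ (p : X) y, ok y p.1.2 → (σ p y).1 = (y, p.1.2) := fun p y h => by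
    simp only [σ, dif_pos h]
  have s2 : ∀ (p : X) y, ok y p.1.2 → ContinuousAt (σ p) y := fun p y h =>
    Topology.IsInducing.subtypeVal.continuousAt_iff.2
      ((continuousAt_id.prodMk continuousAt_const).congr
        ((o1 _ _ h).mono fun y' h' => (s1 p y' h').symm))
  have s3 : ∀ p p' : X, p'.1.2 = p.1.2 → σ p p'.1.1 = p' := fun p p' h =>
    Subtype.ext ((s1 p _ (h ▸ p'.2)).trans (Prod.ext rfl h.symm))
  have πo : IsOpenMap π := fun O h => by
    rw [← isQuotientMap_quotient_mk'.isOpen_preimage]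
    refine isOpen_iff_eventually.2 fun x ⟨y, hy, hxy⟩ => ?_
    have k := (πe y x).1 hxy
    have k1 : ok x.1.1 y.1.2 := k.1 ▸ y.2
    have k2 : σ y x.1.1 ∈ O := by rw [← k.1, s3 y y rfl]; exact hy
    filter_upwards [c1.continuousAt.eventually ((s2 y _ k1).eventually (h.mem_nhds k2)), c2 x,
      c1.continuousAt.eventually (o1 _ _ k1),
      c1.continuousAt.eventually (o2 _ _ _ (k.1 ▸ k.2 : ev x.1.1 y.1.2 x.1.2))] with x' l1 l2 l3 l4
    refine ⟨_, l1, (πe _ _).2 ?_⟩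
    rw [s1 y _ l3, l2]
    exact ⟨rfl, l4⟩
  have _ : T2Space (Quotient s) := (t2Space_iff_of_isOpenQuotientMap ⟨πs, πc, πo⟩).2 (by
    refine isClosed_iff_frequently.2 fun r hr => (πe _ _).2 ?_
    have k1 : r.1.1.1 = r.2.1.1 := (isClosed_eq (c1.comp continuous_fst)
      (c1.comp continuous_snd)).closure_subset (mem_closure_iff_frequently.2
        (hr.mono fun r' h => ((πe _ _).1 h).1))
    refine ⟨k1, o3 _ _ _ r.1.2 (k1 ▸ r.2.2) ((c1.comp continuous_fst).continuousAt.tendsto.frequently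
      ((hr.and_eventually ((continuous_fst.continuousAt.eventually (c2 r.1)).and
        (continuous_snd.continuousAt.eventually (c2 r.2)))).mono fun r' h => ?_))⟩
    rw [← h.2.1, ← h.2.2]
    exact ((πe _ _).1 h.1).2)
  have _ : CompactSpace (Quotient s) := ⟨by
    choose S h1 h2 h3 using fi
    have h4 : ∀ y, ∃ K ∈ 𝓝 y, IsCompact K ∧ ∀ y' ∈ K, (∀ g ∈ S y, ok y' g) ∧
        ∀ g, ok y' g → ∃ s ∈ S y, ev y' g s := fun y => by
      obtain ⟨K, k1, k2, k3⟩ := local_compact_nhds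
        ((((h1 y).eventually_all.2 fun g hg => o1 _ _ (h2 y g hg))).and (h3 y))
      exact ⟨K, k1, k3, fun y' h => k2 h⟩
    choose K k1 k2 k3 using h4
    obtain ⟨t, -, ht⟩ := isCompact_univ.elim_nhds_subcover K fun y _ => k1 y
    refine ((t.isCompact_biUnion fun y _ => Topology.IsInducing.subtypeVal.isCompact_preimage'
      (f := (Subtype.val : X → L.X × G)) ((k2 y).prod (h1 y).isCompact) ?_).image πc).of_isClosed_subset
      isClosed_univ fun v _ => ?_
    · exact fun p hp => ⟨⟨p, (k3 y _ hp.1).1 _ hp.2⟩, rfl⟩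
    · obtain ⟨x, rfl⟩ := πs v
      obtain ⟨y, l1, l2⟩ := mem_iUnion₂.1 (ht (mem_univ x.1.1))
      obtain ⟨g, l3, l4⟩ := (k3 y _ l2).2 _ x.2
      exact ⟨⟨(x.1.1, g), (k3 y _ l2).1 _ l3⟩, mem_iUnion₂.2 ⟨y, l1, l2, l3⟩,
        (πe _ _).2 ⟨rfl, (e1 _).symm l4⟩⟩⟩
  let q : Quotient s → L.X := Quotient.lift (fun p => p.1.1) fun _ _ h => h.1
  have qc : Continuous q := c1.quotient_lift _
  have q1 : ∀ v, q v = (Quotient.out v).1.1 := fun v => congrArg q (Quotient.out_eq v).symm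
  have q2 : ∀ x, ev x.1.1 (Quotient.out (π x)).1.2 x.1.2 := fun x =>
    (e1 _).symm ((πe _ _).1 (Quotient.out_eq (π x)).symm).2
  obtain ⟨E, φ, h1, h2⟩ := exists_mf (d := d) (n := d) qc fun v => by
    obtain ⟨x, rfl⟩ := πs v
    have hc := at_chart (n := d) x.1.1
    set c := chartAt (Cm d) x.1.1
    have hB : IsOpen (c.target ∩ c.symm ⁻¹' {y | ok y x.1.2}) :=
      c.isOpen_inter_preimage_symm (isOpen_iff_eventually.2 fun y h => o1 _ _ h)
    obtain ⟨χ, l1, l2⟩ := Mp.Quo.chart (f := fun u => π (σ x (c.symm u))) hB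
      (fun u hu => (πc.continuousAt.comp ((s2 x _ hu.2).comp
        (c.continuousAt_symm hu.1))).continuousWithinAt)
      (fun u hu u' hu' h => c.symm.injOn hu.1 hu'.1 (by
        simpa only [s1 x _ hu.2, s1 x _ hu'.2] using ((πe _ _).1 h).1))
      fun u hu => le_map fun O h => by
        have m1 : (σ x (c.symm u)).1 = (c.symm u, x.1.2) := s1 x _ hu.2
        have m2 : Tendsto (fun p : X => p.1.1) (𝓝 (σ x (c.symm u))) (𝓝 (c.symm u)) :=
          c1.tendsto' _ _ (by rw [m1])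
        have m3 : ∀ᶠ y in 𝓝 (c.symm u), y ∈ c.source ∧ c y ∈ O :=
          (c.open_source.eventually_mem (c.map_target hu.1)).and
            ((c.continuousAt (c.map_target hu.1)).eventually_mem (by rwa [c.right_inv hu.1]))
        refine mem_of_superset (πo.image_mem_nhds ((m2.eventually m3).and (c2 _))) ?_
        rintro _ ⟨p, hp, rfl⟩
        refine ⟨c p.1.1, hp.1.2, ?_⟩
        show π (σ x (c.symm (c p.1.1))) = π p
        rw [c.left_inv hp.1.1, s3 x p (hp.2.trans (by rw [m1]))]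
    have l3 : c x.1.1 ∈ χ.target := l1 ▸ ⟨hc.mem_target, by
      show ok (c.symm (c x.1.1)) x.1.2
      rw [hc.left_inv]; exact x.2⟩
    refine ⟨χ, ?_, fun u hu e he => ?_⟩
    · have l4 := χ.map_target l3
      rwa [l2, hc.left_inv, s3 x x rfl] at l4
    · have l4 : ∀ u ∈ χ.target, q (χ.symm u) = c.symm u := fun u hu => by
        rw [l2]
        exact congrArg Prod.fst (s1 x _ (l1 ▸ hu).2)
      have l5 : (fun u => e (c.symm u)) =ᶠ[𝓝 u] fun u => e (q (χ.symm u)) := by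
        filter_upwards [χ.open_target.mem_nhds hu] with u' hu'
        rw [l4 u' hu']
      rw [l4 u hu] at he
      have l6 : At c (c.symm u) := At.of_target hc.1 (l1 ▸ hu).1
      have l7 := trans_an he l6
      have l8 := tr_inj he l6
      unfold P277Z.Slc.tr at l8
      rw [c.right_inv (l1 ▸ hu).1] at l7 l8
      exact ⟨l7.congr l5, by rw [← l5.fderiv_eq]; exact l8⟩
  refine ⟨E, fun v => q (φ v), fun v => (Quotient.out (φ v)).1.2,
    ⟨h1, fun v => imm_iff_sbm.1 (h2 v)⟩, fun v => ?_, fun v => ?_,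
    fun y g h => ⟨φ.symm (π ⟨(y, g), h⟩), ?_⟩, fun v w h h' => φ.injective ?_⟩
  · show ok (q (φ v)) _
    rw [q1]
    exact (Quotient.out (φ v)).2
  · have k := πo.image_mem_nhds (c2 (Quotient.out (φ v)))
    rw [show π (Quotient.out (φ v)) = φ v from Quotient.out_eq _] at k
    filter_upwards [φ.continuous.continuousAt.eventually_mem k] with w ⟨p, k1, k2⟩
    rw [← k2, ← show p.1.2 = _ from k1]
    exact q2 p
  · simp only [φ.apply_symm_apply]
    exact ⟨rfl, q2 ⟨(y, g), h⟩⟩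
  · rw [← Quotient.out_eq (φ v), ← Quotient.out_eq (φ w)]
    exact (πe _ _).2 ⟨by rw [← q1, ← q1]; exact h, q1 _ ▸ h'⟩

end Vale.Agent.P280Z.Sq
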