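import Vale.Agent.P280Z.Sq.Sk
import Vale.Agent.P280Z.Sq.Cov
import Vale.Agent.P281Z.Mf.Fib

/-!
# P280Z, block Sq: rows ETL and HOL
-/

open scoped Manifold ContDiff Topology
open Set Filter Function
open Vale.Agent.P272.K Vale.Agent.P285.H281.FD Vale.Agent.P281Z
open Vale.Agent.P277Z (Hol Nz at_chart)
open Vale.Agent.P280Z.Gm (HRR Fa COV)

noncomputable section

namespace Vale.Agent.P280Z.Sq

theorem etl : ETL := by
  intro d L A K _ _ _ E G β φ e1 o2 o3 o1 bc g1 g2 g3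
  obtain ⟨Z, q, lab, h1, h2, h3, h4, h5⟩ := covb L G E e1 o1 o2 o3 fun y => by
    obtain ⟨t, t1, t2⟩ := (isClosed_singleton.preimage bc (t := {y})).isCompact.elim_nhds_subcover
      (fun k => interior {k' | E (β k') (φ k') (φ k)}) fun k _ => interior_mem_nhds.2 (g2 k)
    refine ⟨φ '' t, t.finite_toSet.image _, ?_, ?_⟩
    · rintro _ ⟨k, hk, rfl⟩
      exact (show β k = y from t1 k hk) ▸ g1 k
    · have hO : IsOpen (⋃ k ∈ t, interior {k' | E (β k') (φ k') (φ k)}) :=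
        isOpen_biUnion fun _ _ => isOpen_interior
      filter_upwards [(hO.isClosed_compl.isCompact.image bc).isClosed.isOpen_compl.mem_nhds
        (x := y) fun ⟨k, k1, k2⟩ => k1 (t2 k2)] with y' hy g hg
      obtain ⟨k, rfl, k1⟩ := g3 y' g hg
      obtain ⟨j, j1, j2⟩ := mem_iUnion₂.1 (by_contra fun c => hy ⟨k, c, rfl⟩)
      have j3 := interior_subset j2
      exact ⟨_, ⟨j, j1, rfl⟩, (e1 _).trans ((e1 _).symm k1) j3⟩
  choose Φ p1 p2 using fun k => h4 (β k) (φ k) (g1 k)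
  have hc : Continuous Φ := continuous_iff_continuousAt.2 fun k => by
    obtain ⟨g, l1, l2, -, -, l3⟩ := (imm_iff_sbm.2 (h1.sbm (Φ k))).inv (h1.hol.at _)
    have l4 : Tendsto β (𝓝 k) (𝓝 (q (Φ k))) := bc.tendsto' _ _ (p1 k).symm
    have l5 : Tendsto (fun k => g (β k)) (𝓝 k) (𝓝 (Φ k)) :=
      (l2.cont.tendsto.comp l4).mono_right (congrArg 𝓝 l1).le
    refine l5.congr' ?_
    filter_upwards [l4.eventually l3, l5.eventually (h3 _), g2 k,
      bc.continuousAt.eventually (o2 _ _ _ (p2 k))] with k' m1 m2 m3 m4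
    rw [m1] at m2
    refine h5 _ _ (m1.trans (p1 k').symm) ?_
    rw [m1]
    exact (e1 _).trans ((e1 _).trans m2 m4) ((e1 _).symm ((e1 _).trans (p2 k') m3))
  have hs : Surjective Φ := fun v => by
    obtain ⟨k, k1, k2⟩ := g3 _ _ (h2 v)
    refine ⟨k, h5 _ _ ((p1 k).trans k1) ?_⟩
    rw [p1, k1]
    exact (e1 _).trans (k1 ▸ p2 k) k2
  refine ⟨Z, q, lab, h1, hs.connectedSpace hc, h2, h3, fun y f g hf hg => ?_⟩
  obtain ⟨z, z1, z2⟩ := h4 y f hf
  obtain ⟨z', z3, z4⟩ := h4 y g hg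
  exact ⟨z, z', z1, z3, z2, z4⟩

theorem ev_of_freq {n q : ℕ} {X : Mf n} {f g : X.X → Cm q} {x : X.X} (hf : HolA n q f x)
    (hg : HolA n q g x) (h : ∃ᶠ y in 𝓝 x, f =ᶠ[𝓝 y] g) : f =ᶠ[𝓝 x] g := by
  have k : ∀ a, ∀ᶠ y in 𝓝 x, f y a - g y a = 0 := fun a => by_contra fun c => by
    obtain ⟨y, y1, y2⟩ := (h.and_eventually (P277Z.Nz.near (n := n) c
      (((hf.anV (at_chart _)).hol a).sub ((hg.anV (at_chart _)).hol a)))).exists
    exact y2 (y1.mono fun z hz => sub_eq_zero.2 (congrFun hz a))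
  filter_upwards [eventually_all.2 k] with y hy using funext fun a => sub_eq_zero.1 (hy a)

theorem Rl.symm {n : ℕ} {X : Mf n} {S : Cor X → Prop} (hS : Cls S) {x y : X.X} (h : Rl S x y) :
    Rl S y x :=
  let ⟨C, h1, c, h2, h3⟩ := h
  ⟨C.swap, hS.swap C h1, c, h3, h2⟩

theorem hol_of (hX : TRX) (hL : LEAF) (hG : GERM) (hA : ADJ) (hI : INJ) (hC : COV) : HOL := by
  intro T hT hR n d q X S D hF hD hn C hC' c h hc hh
  obtain ⟨x1, x2, x3, x4, x5⟩ := hX (q := q) S D hD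
  have lf := hL S D hD hn C hC'
  set x := C.a c with hx
  have rl : ∀ k, C.a k = x → Rl S x (C.b k) := fun k hk => ⟨C, hC'.1, k, hk, rfl⟩
  have fi : ∀ y f, Go S x h y f → FI q D f y := fun y f ⟨B, b1, k, b2, b3, b4⟩ =>
    b3 ▸ x2 B b1 k h f (b2 ▸ hh) b4
  let K := C.a ⁻¹' {x}
  have _ : CompactSpace K := isCompact_iff_compactSpace.1
    (isClosed_singleton.preimage C.sa.hol.cont).isCompact
  have _ : ConnectedSpace K := isConnected_iff_connectedSpace.1 (C.ca x)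
  choose φ hφ using fun k : K => x1 C hC'.1 k h ((show C.a k = x from k.2) ▸ hh)
  have go : ∀ k : K, Go S x h (C.b k) (φ k) := fun k => ⟨C, hC'.1, k, k.2, rfl, hφ k⟩
  have im : {y | Rl S x y} = range fun k : K => C.b k := Subset.antisymm
    (fun y hy => let ⟨k, k1, k2⟩ := hC'.2 x y hy; ⟨⟨k, k1⟩, k2⟩)
    (by rintro _ ⟨k, rfl⟩; exact rl k k.2)
  have bc : Continuous fun k : K => C.b k := C.sb.hol.cont.comp continuous_subtype_val
  obtain ⟨L, i, hi⟩ := SubM.emb (n := n) (d := d) (S := {y | Rl S x y}) (fun y hy => by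
    obtain ⟨k, rfl⟩ := im ▸ hy
    have k1 := fi _ _ (go k)
    refine ⟨q, _, hn, fib_ind k1.hol k1.sbm (at_chart _), ?_⟩
    filter_upwards [(lf _ _ k1).1, fib_ev k1.hol.cont (at_chart (n := q) _)] with y k2 k3
    exact Iff.trans ⟨fun l => x5 _ _ _ (Rl.symm hD.cls hy) l, fun l => x5 _ _ _ hy l⟩
      (k2.trans k3)) (im ▸ isCompact_range bc)
  have ic := hi.hol.cont
  have rr : ∀ y y', Rl S (i y) (i y') := fun y y' =>
    x5 _ _ _ (Rl.symm hD.cls (hi.mem y)) (hi.mem y')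
  choose β hβ using fun k : K => hi.ex (rl k k.2)
  have βc : Continuous β := hi.cemb.isInducing.continuous_iff.2 (bc.congr fun k => (hβ k).symm)
  obtain ⟨Z, ε, ψ, z1, z2, z3, z4, z5⟩ := etl L (X.X → Cm q) K (fun y f g => f =ᶠ[𝓝 (i y)] g)
    (fun y f => Go S x h (i y) f) β φ (fun y => ⟨fun _ => .rfl, .symm, .trans⟩)
    (fun y f g k => ic.continuousAt.eventually k.eventually_nhds)
    (fun y f g hf hg k => ev_of_freq (fi _ _ hf).hol (fi _ _ hg).hol
      (ic.continuousAt.tendsto.frequently k))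
    (fun y f hf => (ic.continuousAt.eventually (lf _ _ (fi _ _ hf)).2.1).mono fun y' k =>
      x4 _ _ _ _ _ _ hf (k (rr y y'))) βc (fun k => (hβ k).symm ▸ go k)
    (fun k => (continuous_subtype_val.continuousAt.eventually (hφ k).eventually_nhds).mono
      fun k' l => (hβ k').symm ▸ x3 C k' h _ _ (hφ k') l)
    fun y f hf => by
      obtain ⟨k, k1, k2, k3⟩ := hG S D hD C hC' x (i y) h f hh hf
      exact ⟨⟨k, k1⟩, hi.inj ((hβ _).trans k2), k2 ▸ x3 C k h _ _ (hφ ⟨k, k1⟩) k3⟩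
  have cL : ConnectedSpace L.X := hi.conn.2 (im ▸ isConnected_range bc)
  have kL : L.Kah := hi.kah ((hT.po.kah X).2 ⟨_, hF⟩)
  have iε := fun z => imm_iff_sbm.2 (z1.sbm z)
  have hj := hi.hol.comp z1.hol
  have a1 := hA T hT Z X _ hj ψ hn
    (fun z => .comp (hi.hol.at _) (z1.hol.at _) (hi.imm _) (iε z)) fun z =>
      ⟨(fi _ _ (z3 z)).hol, (fi _ _ (z3 z)).sbm,
        (hj.cont.continuousAt.eventually (lf _ _ (fi _ _ (z3 z))).1).mono fun z' k => k.1 (rr _ _),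
        z4 z⟩
  have a2 := hA T hT (q := 0) Z L ε z1.hol (fun _ _ => 0) rfl iε fun z =>
    ⟨(holM_const _).at _, fun _ _ _ _ v => ⟨0, Subsingleton.elim _ _⟩, .of_forall fun _ => rfl,
      .of_forall fun _ => .rfl⟩
  have a3 : T.c1 L (Bd.can d L.X) - T.pull hi.hol (T.c1 X (Bd.can n X.X)) = 0 :=
    hI T hT z1.hol (kim _ _ _ _ ε z1.hol iε kL) kL cL ⟨z2.toNonempty.some, z1.sbm _⟩ _ (by
      rw [map_sub, ← a2, ← hT.rg.pull_comp z1.hol hi.hol hj (fun _ => rfl), ← a1, sub_self])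
  have a4 : Fa T L := by
    unfold Fa
    rw [sub_eq_zero.1 a3, ← map_neg]
    exact hT.po.mono (hT.po.pull hi.hol hF) fun z v hv =>
      hi.imm z _ _ (at_chart z) (at_chart _) (hv.trans (map_zero _).symm)
  have r0 : Rl S x x := hc ▸ rl c rfl
  obtain ⟨y, hy⟩ := hi.ex r0
  obtain ⟨z, z', l1, l2, l3, l4⟩ := z5 y h (φ ⟨c, rfl⟩)
    (hy.symm ▸ (lf x h hh).2.1.self_of_nhds r0) (hy.symm ▸ hc ▸ go ⟨c, rfl⟩)
  have l5 : ψ z =ᶠ[𝓝 (i y)] ψ z' := (hC T hT hR Z L ε z1 z2 cL a4 y).2.induction₂'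
    (fun z z' => ψ z =ᶠ[𝓝 (i y)] ψ z') (fun w hw => by
      filter_upwards [mem_nhdsWithin_of_mem_nhds (z4 w), self_mem_nhdsWithin] with w' m1 m2
      rw [show ε w' = y from m2] at m1
      exact ⟨m1.symm, m1⟩) (fun _ _ _ _ _ _ => .trans) l1 l2
  have l6 := (l3.symm.trans l5).trans l4
  rw [hy, ← hc] at l6
  filter_upwards [hφ ⟨c, rfl⟩, C.sb.hol.cont.continuousAt.eventually l6] with c' m1 m2
    using m2.trans m1

end Vale.Agent.P280Z.Sq
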