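import Vale.Agent.P280Z.Sq.Sk
import Vale.Agent.P281Z.Mf.Loc

/-!
# P280Z, block Sq: local first integrals (row INT)
-/

open scoped Manifold ContDiff Topology Matrix
open Set Filter Module
open Vale.Agent.P272.K Vale.Agent.P285.H281.FD Vale.Agent.P281Z
open Vale.Agent.P277Z (Hol at_chart hol_const)
open Vale.Agent.P277Z.Slc (Ind dd ind_iff_surj)

noncomputable section

namespace Vale.Agent.P280Z.Sq

namespace IntH

theorem split {n d q : ℕ} (W : Submodule ℂ (Cm n)) (hW : finrank ℂ W = d) (h : d + q = n) :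
    ∃ Λ : Cm n ≃L[ℂ] Cm d × Cm q, ∀ u, ∃ w ∈ W, (Λ w).1 = u := by
  obtain ⟨W', hc⟩ := W.exists_isCompl
  have h1 := Submodule.finrank_add_eq_of_isCompl hc
  rw [hW, Module.finrank_fin_fun] at h1
  let e1 : W ≃ₗ[ℂ] Cm d := LinearEquiv.ofFinrankEq _ _ (by simp [hW])
  let e2 : W' ≃ₗ[ℂ] Cm q := LinearEquiv.ofFinrankEq _ _ (by rw [Module.finrank_fin_fun]; omega)
  refine ⟨((W.prodEquivOfIsCompl W' hc).symm.trans (e1.prodCongr e2)).toContinuousLinearEquiv,
    fun u => ⟨e1.symm u, (e1.symm u).2, ?_⟩⟩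
  simp

theorem ker_eq {n d q : ℕ} {W : Submodule ℂ (Cm n)} (hW : finrank ℂ W = d) (h : d + q = n)
    {L : Cm n →ₗ[ℂ] Cm q} (k : LinearMap.ker L ≤ W) :
    LinearMap.ker L = W ∧ Function.Surjective L := by
  have h1 := L.finrank_range_add_finrank_ker
  have h2 := (LinearMap.range L).finrank_le
  have h3 := Submodule.finrank_mono k
  rw [Module.finrank_fin_fun] at h1 h2
  exact ⟨Submodule.eq_of_le_of_finrank_le k (by omega), LinearMap.range_eq_top.1
    (Submodule.eq_top_of_finrank_eq (by rw [Module.finrank_fin_fun]; omega))⟩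

theorem sec {n d m : ℕ} {X : Mf n} {C : Mf m} {a b : C.X → X.X} {c : C.X} (ha : HolA m n a c)
    (hb : HolA m n b c) (hs : Sbm m n a c) (μ : Cm n →L[ℂ] Cm d)
    (hμ : ∀ u, ∃ v, Df m n a c v = 0 ∧ μ (Df m n b c v) = u) :
    ∃ s : X.X → C.X, HolA n m s (a c) ∧ ∀ᶠ y in 𝓝 (a c), a (s y) = y ∧
      At (chartAt (Cm n) (b c)) (b (s y)) ∧
      μ (chartAt (Cm n) (b c) (b (s y))) = μ (chartAt (Cm n) (b c) (b c)) := by
  have he := at_chart (n := m) c
  have hx := at_chart (n := n) (a c)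
  have hy := at_chart (n := n) (b c)
  have h0 : AnV m (fun z => μ (chartAt (Cm n) (b c) (b z))) c := (hb.anV hy).cmp (μ.analyticAt _)
  have h1 : Ind m (Sum.elim (fun j z => chartAt (Cm n) (a c) (a z) j)
      fun j z => μ (chartAt (Cm n) (b c) (b z)) j) c := by
    refine Ind.of_chart (Sum.rec (ha.anV hx).hol h0.hol) he ((ind_iff_surj _).2 fun w => ?_)
    have k := (fderiv_pi fun j => (h0.hol j _ he).differentiableAt).symm.trans
      (μ.hasFDerivAt.comp _ (hb.an he hy).differentiableAt.hasFDerivAt).fderiv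
    obtain ⟨v, hv⟩ := hs _ _ he hx fun j => w (.inl j)
    obtain ⟨v', k1, k2⟩ := hμ ((fun j => w (.inr j)) - μ (Df m n b c v))
    refine ⟨v + v', funext ?_⟩
    rintro (j | j)
    · refine (df_apply ha he hx _ j).symm.trans (congrFun (Eq.trans ?_ hv) j)
      rw [map_add]
      exact add_eq_left.2 k1
    · refine (congrFun (DFunLike.congr_fun k _) j).trans (congrFun (f := μ (Df m n b c (v + v')))
        (g := fun j => w (.inr j)) ?_ j)
      rw [map_add, map_add, k2, add_sub_cancel]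
  obtain ⟨Θ, t1, t2, t3, t4⟩ := exists_co h1 (Nat.add_sub_cancel' (ind_le h1))
    ((ha.cont.eventually (at_near hx)).and (hb.cont.eventually (at_near hy)))
  let F : X.X → (Fin n ⊕ Fin d → ℂ) × Cm (m - Fintype.card (Fin n ⊕ Fin d)) := fun y =>
    (Sum.elim (chartAt (Cm n) (a c) y) (μ (chartAt (Cm n) (b c) (b c))), (Θ c).2)
  have h2 : AnV n F (a c) :=
    (AnV.pi (Sum.rec (hol_chart hx) fun _ => hol_const _ _)).prod (anV_const _ _)
  have h3 : F (a c) ∈ Θ.target := by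
    rw [show F (a c) = Θ c from
      Prod.ext ((t4 c t2).trans (funext (Sum.rec (fun _ => rfl) fun _ => rfl))).symm rfl]
    exact Θ.map_source t2
  refine ⟨fun y => Θ.symm (F y), t1.holA h2 h3, ?_⟩
  filter_upwards [h2.cont.eventually (Θ.open_target.mem_nhds h3), at_near hx] with y k1 k2
  have k3 := Θ.map_target k1
  have k4 := (t4 _ k3).symm.trans (congrArg Prod.fst (Θ.right_inv k1))
  exact ⟨(chartAt (Cm n) (a c)).injOn (t3 k3).1.2 k2.2 (funext fun j => congrFun k4 (.inl j)),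
    (t3 k3).2, funext fun j => congrFun k4 (.inr j)⟩

end IntH

open IntH

theorem int_ : INT := fun {n d q X} S D hD hn x => by
  obtain ⟨C, hC, hx⟩ := hD.ex
  obtain ⟨c, rfl, hc⟩ := hx x
  obtain ⟨Λ, hΛ⟩ := split _ (hD.rk (C.b c)) hn
  obtain ⟨s, h1, h2⟩ := sec (C.sa.hol.at c) (C.sb.hol.at c) (C.sa.sbm c)
    ((ContinuousLinearMap.fst ℂ _ _).comp Λ.toContinuousLinearMap) fun u => by
      obtain ⟨w, k1, k2⟩ := hΛ u
      obtain ⟨v, k3, rfl⟩ := hc.ge k1
      exact ⟨v, k3, k2⟩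
  have hχ := (at_chart (n := n) (C.b c)).1
  set χ := chartAt (Cm n) (C.b c)
  let h : X.X → Cm q := fun y => (Λ (χ (C.b (s y)))).2
  let ψ : Cm q → X.X := fun v => χ.symm (Λ.symm ((Λ (χ (C.b c))).1, v))
  have h3 : ∀ᶠ y in 𝓝 (C.a c), Λ.symm ((Λ (χ (C.b c))).1, h y) = χ (C.b (s y)) :=
    h2.mono fun y k => Λ.symm_apply_eq.2 (Prod.ext k.2.2.symm rfl)
  have h4 : ∀ᶠ y in 𝓝 (C.a c), C.a (s y) = y ∧ C.b (s y) = ψ (h y) := by
    filter_upwards [h2, h3] with y k1 k2
    exact ⟨k1.1, k1.2.1.left_inv.symm.trans (congrArg χ.symm k2.symm)⟩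
  have h5 : ∀ᶠ y in 𝓝 (C.a c), HolA n q h y ∧ LinearMap.ker (Df n q h y) ≤ D y := by
    filter_upwards [h1.near, h2, h3, h4.eventually_nhds] with y k1 k2 k3 k4
    have hb := C.sb.hol.at (s y)
    have a0 : AnV n h y := ((hb.cmp k1).anV k2.2.1).cmp (G := fun v => (Λ v).2)
      (((ContinuousLinearMap.snd ℂ _ _).comp Λ.toContinuousLinearMap).analyticAt _)
    have a1 : HolA n q h y := .of_hol a0.cont (at_chart _) a0.hol
    have a2 : HolA q n ψ (h y) := (co_chart hχ).holA ((anV_chart (at_chart (h y))).cmp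
      (G := fun v => Λ.symm ((Λ (χ (C.b c))).1, v))
      ((Λ.symm.toContinuousLinearMap.analyticAt _).fun_comp (analyticAt_const.prod analyticAt_id)))
      (by rw [k3]; exact k2.2.1.mem_target)
    refine ⟨a1, fun v hv => ?_⟩
    have b1 : Df C.m n C.a (s y) (Df n C.m s y v) = v := by
      refine (DFunLike.congr_fun (df_comp (C.sa.hol.at _) k1 (at_chart y) (at_chart _)
        (at_chart _)) v).symm.trans ?_
      rw [df_congr (k4.mono fun _ k => k.1) (at_chart y), k2.1, df_id_self (at_chart y)]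
      rfl
    have b2 : Df C.m n C.b (s y) (Df n C.m s y v) = 0 := by
      refine (DFunLike.congr_fun (df_comp hb k1 (at_chart y) (at_chart _) (at_chart _)) v).symm.trans ?_
      rw [df_congr (k4.mono fun _ k => k.2) (at_chart y), k4.self_of_nhds.2,
        df_comp a2 a1 (at_chart y) (at_chart _) (at_chart _)]
      exact (congrArg (Df q n ψ (h y)) hv).trans (map_zero _)
    have b3 := (hD.inv C hC (s y) _).2 (b2 ▸ zero_mem _)
    rwa [b1, k2.1] at b3
  have h6 := h5.self_of_nhds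
  exact ⟨h, C, s, ψ, ⟨h6.1, .of_chart h6.1 (at_chart _) (at_chart _) (ker_eq (hD.rk _) hn h6.2).2,
    h5.mono fun y k => (ker_eq (hD.rk _) hn k.2).1⟩, hC, h1.cont, h4⟩

end Vale.Agent.P280Z.Sq
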