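import Vale.Agent.P280Z.Co.Kcp

/-!
# P280Z, block Sq: the base of a submersion of a compact Kähler manifold is Kähler
-/

open Vale.Agent.P281Z

namespace Vale.Agent.P280Z.Sq

/-- **row KSUB** -/
theorem ksub : ∀ {n m : ℕ} (V : Mf n) (W : Mf m) (f : V.X → W.X), Sub n m f →
    Function.Surjective f → V.Kah → W.Kah := Co.kah_sub

end Vale.Agent.P280Z.Sq
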