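import Vale.Agent.P280Z.Sq.Sk
import Vale.Agent.P281Z.Mf.Fib

/-!
# P280Z, block Sq: the classes are leaves
-/

open scoped Manifold ContDiff Topology Matrix
open Set Filter Module
open Vale.Agent.P272.K Vale.Agent.P285.H281.FD Vale.Agent.P281Z
open Vale.Agent.P277Z (at_chart)

noncomputable section

namespace Vale.Agent.P280Z.Sq

namespace LeafH

variable {n d q : ℕ} {X : Mf n} {S : Cor X → Prop} {D : X.X → Submodule ℂ (Cm n)}

theorem zero (hD : Dis S d D) {C : Cor X} (hC : S C) {x : X.X} {e : ℕ} {F : Mf e}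
    {i : F.X → C.C.X} (hi : Emb e C.m i (C.a ⁻¹' {x})) {h : X.X → Cm q} {w : F.X}
    (hh : HolA n q h (C.b (i w))) (hk : LinearMap.ker (Df n q h (C.b (i w))) = D (C.b (i w))) :
    Df e q (fun w => h (C.b (i w))) w = 0 := by
  refine LinearMap.ext fun v => ?_
  have k1 : Df C.m n C.a (i w) (Df e C.m i w v) = 0 :=
    (hi.fib_ker C.sa.hol (C.sa.sbm _) (at_chart w) (at_chart _) (at_chart _) _).2 ⟨v, rfl⟩
  have k2 : Df C.m n C.b (i w) (Df e C.m i w v) ∈ D (C.b (i w)) :=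
    (hD.inv C hC _ _).1 (k1 ▸ (D _).zero_mem)
  rw [← hk, LinearMap.mem_ker] at k2
  have e1 := df_comp (C.sb.hol.at (i w)) (hi.hol.at w) (at_chart w) (at_chart _)
    (at_chart (C.b (i w)))
  have e2 := df_comp (f := fun w => C.b (i w)) hh ((C.sb.hol.comp hi.hol).at w) (at_chart w)
    (at_chart _) (at_chart (h (C.b (i w))))
  rw [e1] at e2
  exact (congrArg (fun L : Cm e →L[ℂ] Cm q => L v) e2).trans k2

theorem fwd (fac : FAC) (hD : Dis S d D) {C : Cor X} (hC : S C) {x : X.X} {h : X.X → Cm q}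
    (hh : FI q D h x) : ∀ᶠ y in 𝓝 x, ∀ c, C.a c = x → C.b c = y → h y = h x := by
  obtain ⟨c₀, -, -⟩ := C.dg x
  obtain ⟨e, he⟩ := Nat.exists_eq_add_of_le (C.sa.sbm c₀).le
  obtain ⟨F, i, hi⟩ := fib_emb (y := x) he C.sa.hol fun c _ => C.sa.sbm c
  have hg : HolM e n fun w => C.b (i w) := C.sb.hol.comp hi.hol
  have k := hg.cont.isClosedMap.eventually_nhds_fiber (p := fun w => h (C.b (i w)) = h x) x
    fun w hw => by
      obtain rfl : C.b (i w) = x := hw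
      have t := hg.cont.continuousAt (x := w)
      refine fac.2 (fun w => h (C.b (i w))) w (HolA.cmp hh.hol (hg.at w)) ?_
      filter_upwards [t.eventually hh.hol.near, t.eventually hh.ker] with w' k1 k2
      exact zero hD hC hi k1 k2
  filter_upwards [k] with y hy c h1 h2
  obtain ⟨w, rfl⟩ := hi.ex (y := c) h1
  exact h2 ▸ hy w h2

end LeafH

open LeafH in
theorem leaf_of (fac : FAC) (int : INT) (trx : TRX) : LEAF := by
  intro n d q X S D hD hn C hC x h hh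
  obtain ⟨t1, -, -, t4, t5⟩ := @trx n d q X S D hD
  obtain ⟨h₀, C₀, s, ψ, f₀, hC₀, hs, e⟩ := int S D hD hn x
  have hW : ∃ W ∈ 𝓝 x, ∀ y ∈ W, ∀ y' ∈ W, h y = h y' → Rl S y y' := by
    obtain ⟨γ, -, hγ⟩ := fac.1 h h₀ x hh.hol hh.sbm f₀.hol (by
      filter_upwards [hh.ker, f₀.ker] with y k1 k2 v hv
      rw [← LinearMap.mem_ker] at hv ⊢
      rwa [k2, ← k1])
    refine ⟨_, hγ.and e, fun y ⟨k1, k2, k3⟩ y' ⟨l1, l2, l3⟩ k => ?_⟩
    refine t5 y (C₀.b (s y)) y' ⟨C₀, hC₀, s y, k2, rfl⟩ ⟨C₀.swap, hD.cls.swap _ hC₀, s y', ?_, l2⟩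
    change C₀.b (s y') = C₀.b (s y)
    rw [k3, l3, ← k1, ← l1, k]
  refine ⟨?_, ?_, hW⟩
  · obtain ⟨W, w1, w2⟩ := hW
    filter_upwards [w1, fwd fac hD hC.1 hh] with y k1 k2
    refine ⟨fun k => ?_, fun k => w2 x (mem_of_mem_nhds w1) y k1 k.symm⟩
    obtain ⟨c, c1, c2⟩ := hC.2 x y k
    exact k2 c c1 c2
  · obtain ⟨a1, a2⟩ := e.self_of_nhds
    obtain ⟨f, hf⟩ := t1 C₀ hC₀ (s x) h (a1.symm ▸ hh)
    filter_upwards [e, hs.eventually (Filter.Eventually.eventually_nhds hf),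
      fwd fac hD hC.1 f₀] with y ⟨k1, k2⟩ k3 k4 k
    obtain ⟨c, c1, c2⟩ := hC.2 x y k
    refine t4 x (C₀.b (s x)) y h f h ⟨C₀, hC₀, s x, a1, rfl, hf⟩
      ⟨C₀.swap, hD.cls.swap _ hC₀, s y, ?_, k1, k3.mono fun c' hc' => hc'.symm⟩
    change C₀.b (s y) = C₀.b (s x)
    rw [k2, a2, k4 c c1 c2]

end Vale.Agent.P280Z.Sq
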