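import Vale.Agent.P280Z.Sq.Sk
import Vale.Agent.P280Z.Ma.Lha
import Vale.Agent.P280Z.Co.Fp
import Vale.Agent.P281Z.Mf.Sub

/-!
# P280Z, block Sq: the correspondence of a family
-/

open scoped Manifold ContDiff Topology Matrix
open Set Filter Module
open Vale.Agent.P272.K Vale.Agent.P285.H281.FD Vale.Agent.P281Z

noncomputable section

namespace Vale.Agent.P280Z.Sq

namespace LnkH

variable {n m n' m' : ℕ} {V : Mf n} {W : Mf m} {V' : Mf n'} {W' : Mf m'}
  {f : V.X → W.X} {g : W'.X → W.X} {f' : V'.X → W'.X} {g' : V'.X → V.X}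

theorem at_chart {d : ℕ} {M : Type} [TopologicalSpace M] [ChartedSpace (Cm d) M] (x : M) :
    At (chartAt (Cm d) x) x := ⟨chart_mem_atlas _ x, mem_chart_source _ x⟩

theorem kah (h : Cart f g f' g') (h1 : V.Kah) (h2 : W'.Kah) : V'.Kah := by
  obtain ⟨Z, a, b, hc, -, hk, hu⟩ := P280Z.fp n' f g h.dim h.sf h.hg
  obtain ⟨c, c1, c2⟩ := hu V' f' g' h.sf'.hol h.hg' fun z => (h.comm z).symm
  obtain rfl : f' = fun z => a (c z) := funext fun z => (c2 z).1.symm
  obtain rfl : g' = fun z => b (c z) := funext fun z => (c2 z).2.symm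
  refine kim _ _ Z V' c c1 (fun z => Imm.of_chart (c1.at z) (at_chart z) (at_chart _)
    ((injective_iff_map_eq_zero _).2 fun v hv => h.imm z v ?_ ?_)) (hk h1 h2)
  · refine (DFunLike.congr_fun (df_comp (hc.sf'.hol.at _) (c1.at z) (at_chart z) (at_chart _)
      (at_chart _)) v).trans ?_
    exact (congrArg (df a _ _ (c z)) hv).trans (map_zero _)
  · refine (DFunLike.congr_fun (df_comp (hc.hg'.at _) (c1.at z) (at_chart z) (at_chart _)
      (at_chart _)) v).trans ?_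
    exact (congrArg (df b _ _ (c z)) hv).trans (map_zero _)

theorem fib {A B E D : Type} [TopologicalSpace A] [TopologicalSpace B] [TopologicalSpace E]
    [CompactSpace E] [T2Space A] [T2Space B] {p : A → D} {q : B → D} {a : E → A} {b : E → B}
    (ha : Continuous a) (hb : Continuous b) (h1 : ∀ z, p (a z) = q (b z))
    (h2 : ∀ x y, p x = q y → ∃! z, a z = x ∧ b z = y) {x : A} (h : IsConnected (q ⁻¹' {p x})) :
    IsConnected (a ⁻¹' {x}) := by
  have hc : IsClosed (a ⁻¹' {x}) := isClosed_singleton.preimage ha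
  have : CompactSpace (a ⁻¹' {x}) := isCompact_iff_compactSpace.1 hc.isCompact
  let φ : a ⁻¹' {x} → q ⁻¹' {p x} := fun z => ⟨b z.1, (h1 _).symm.trans (congrArg p z.2)⟩
  have φc : Continuous φ := (hb.comp continuous_subtype_val).subtype_mk _
  have φb : Function.Bijective φ := ⟨fun z w e => by
    obtain ⟨u, -, hu⟩ := h2 x (b z.1) (φ z).2.symm
    exact Subtype.ext ((hu _ ⟨z.2, rfl⟩).trans (hu _ ⟨w.2, (congrArg Subtype.val e).symm⟩).symm),
    fun y => by
      obtain ⟨u, hu, -⟩ := h2 x y.1 y.2.symm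
      exact ⟨⟨u, hu.1⟩, Subtype.ext hu.2⟩⟩
  have := isConnected_iff_connectedSpace.1 h
  exact isConnected_iff_connectedSpace.2
    ((φc.homeoOfEquivCompactToT2 (f := Equiv.ofBijective φ φb)).connectedSpace_iff.2 this)

theorem pre {A B E : Type} [TopologicalSpace A] [TopologicalSpace B] [TopologicalSpace E]
    [CompactSpace E] [T2Space A] [T1Space B] {a : E → A} {e : A → B} (ha : Continuous a)
    (he : Continuous e) (h : ∀ x, IsConnected (a ⁻¹' {x})) (y : B)
    (h' : IsConnected (e ⁻¹' {y})) : IsConnected ((fun z => e (a z)) ⁻¹' {y}) :=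
  Topology.IsCoinducing.isConnected_preimage_of_isClosed h
    (ha.isClosedMap.isQuotientMap ha fun x => (h x).nonempty).isCoinducing
    (isClosed_singleton.preimage he) h'

end LnkH

open LnkH

theorem lnk : LNK := by
  intro T hT n X F
  have hc := F.Q.cart
  have s1 : Sub (F.k + 1 + 1) n fun z => F.e (F.Q.q1 z) := ⟨F.se.hol.comp hc.sf'.hol, fun z =>
    Sbm.comp (F.se.hol.at _) (hc.sf'.hol.at z) (F.se.sbm _) (hc.sf'.sbm z)⟩
  have s2 : Sub (F.k + 1 + 1) n fun z => F.e (F.Q.q2 z) := ⟨F.se.hol.comp hc.hg', fun z =>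
    Sbm.comp (F.se.hol.at _) (hc.hg'.at z) (F.se.sbm _) (F.Q.sub2.sbm z)⟩
  refine ⟨⟨_, F.Q.U2, _, _, s1, s2, kah hc F.kU F.kU, fun x => pre hc.sf'.hol.cont F.se.hol.cont
    (fun y => fib hc.sf'.hol.cont hc.hg'.cont (fun z => (hc.comm z).symm) hc.uniq (F.cp _)) x
    (F.ce x), fun x => pre hc.hg'.cont F.se.hol.cont (fun y => fib hc.hg'.cont hc.sf'.hol.cont
      hc.comm (fun x y h => (hc.uniq y x h.symm).imp fun z hz =>
        ⟨hz.1.symm, fun w hw => hz.2 w hw.symm⟩) (F.cp _)) x (F.ce x), fun x => ?_⟩,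
    fun x y => ⟨?_, ?_⟩, fun u hu => ?_⟩
  · obtain ⟨u, hu⟩ := (F.ce x).nonempty
    exact ⟨F.Q.dg u, (congrArg F.e (F.Q.h1 u)).trans hu, (congrArg F.e (F.Q.h2 u)).trans hu⟩
  · rintro ⟨u, v, h, rfl, rfl⟩
    obtain ⟨c, ⟨h1, h2⟩, -⟩ := hc.uniq u v h
    exact ⟨c, congrArg F.e h1, congrArg F.e h2⟩
  · rintro ⟨c, rfl, rfl⟩
    exact ⟨_, _, (hc.comm c).symm, rfl, rfl⟩
  · have h1 := Ma.lh F.Q hT F.kU (T.pull F.se.hol u)
    have h2 : T.dem hc.hg (T.pull F.se.hol u) = 0 := (congrArg (T.pull hc.hg) hu).trans (map_zero _)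
    rw [h2, mul_zero, zero_add] at h1
    have h3 : ∀ b, T.pull hc.sf'.hol (T.pull hc.hg b) = T.pull hc.hg' (T.pull hc.hg b) := fun b =>
      (hT.rg.pull_comp hc.sf'.hol hc.hg (hc.hg.comp hc.sf'.hol) (fun _ => rfl) b).symm.trans
        (hT.rg.pull_comp hc.hg' hc.hg _ (fun z => (hc.comm z).symm) b)
    change T.pull s1.hol u = T.pull s2.hol u
    rw [hT.rg.pull_comp hc.sf'.hol F.se.hol s1.hol (fun _ => rfl),
      hT.rg.pull_comp hc.hg' F.se.hol s2.hol (fun _ => rfl)]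
    refine smul_right_injective _ (two_ne_zero (α := ℝ)) ?_
    change (2 : ℝ) • _ = (2 : ℝ) • _
    rw [← map_smul (T.pull hc.sf'.hol), ← map_smul (T.pull hc.hg'), ← h1]
    exact h3 _

end Vale.Agent.P280Z.Sq
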