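import Vale.Agent.P280Z.Sq.Sk
import Vale.Agent.P281Z.An.Rem
import Vale.Agent.P281Z.Mf.Fib

/-!
# P280Z, block Sq: chains of bounded length
-/

open scoped Manifold ContDiff Topology Matrix
open Set Filter Module
open Vale.Agent.P272.K Vale.Agent.P285.H281.FD Vale.Agent.P281Z
open Vale.Agent.P277Z (at_chart)

noncomputable section

namespace Vale.Agent.P280Z.Sq

namespace OneH

theorem cmp {n p q : ℕ} {X Y Z : Type} [TopologicalSpace X] [ChartedSpace (Cm n) X]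
    [TopologicalSpace Y] [ChartedSpace (Cm p) Y] [TopologicalSpace Z] [ChartedSpace (Cm q) Z]
    [IsManifold 𝓘(ℂ, Cm n) ω X] [IsManifold 𝓘(ℂ, Cm p) ω Y] [IsManifold 𝓘(ℂ, Cm q) ω Z]
    {f : X → Y} {g : Y → Z} {x : X} (hg : HolA p q g (f x)) (hf : HolA n p f x) (v : Cm n) :
    Df n q (fun x => g (f x)) x v = Df p q g (f x) (Df n p f x v) :=
  congrArg (fun L : Cm n →L[ℂ] Cm q => L v)
    (df_comp hg hf (at_chart x) (at_chart (f x)) (at_chart (g (f x))))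

variable {n d q k : ℕ} {X : Mf n} {S : Cor X → Prop} {D : X.X → Submodule ℂ (Cm n)}

theorem fib (C : Cor X) (x : X.X) : ∃ (k : ℕ) (F : Mf k) (i : F.X → C.C.X),
    Emb k C.m i (C.a ⁻¹' {x}) ∧ ConnectedSpace F.X := by
  obtain ⟨c, -⟩ := C.dg x
  obtain ⟨k, hk⟩ := Nat.exists_eq_add_of_le (C.sa.sbm c).le
  obtain ⟨F, i, hi⟩ := fib_emb (y := x) hk C.sa.hol fun c _ => C.sa.sbm c
  exact ⟨k, F, i, hi, hi.conn.2 (C.ca x)⟩

theorem tan {C : Cor X} {F : Mf k} {i : F.X → C.C.X} {x : X.X} (hi : Emb k C.m i (C.a ⁻¹' {x}))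
    (w : F.X) (v : Cm C.m) : Df C.m n C.a (i w) v = 0 ↔ ∃ u, Df k C.m i w u = v :=
  hi.fib_ker C.sa.hol (C.sa.sbm _) (at_chart w) (at_chart _) (at_chart _) v

theorem cst (hF : FAC) (hD : Dis S d D) {C : Cor X} (hC : S C) {F : Mf k} {i : F.X → C.C.X}
    {x : X.X} (hi : Emb k C.m i (C.a ⁻¹' {x})) {w : F.X} {h : X.X → Cm q}
    (hh : FI q D h (C.b (i w))) : ∀ᶠ w' in 𝓝 w, h (C.b (i w')) = h (C.b (i w)) := by
  have h1 : HolM k n fun w => C.b (i w) := C.sb.hol.comp hi.hol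
  refine hF.2 (fun w => h (C.b (i w))) w (HolA.cmp (f := fun w => C.b (i w)) hh.hol (h1.at w)) ?_
  filter_upwards [h1.cont.continuousAt.eventually hh.hol.near,
    h1.cont.continuousAt.eventually hh.ker] with z k1 k2
  refine LinearMap.ext fun v => ?_
  rw [cmp (f := fun w => C.b (i w)) k1 (h1.at z), cmp (C.sb.hol.at _) (hi.hol.at z),
    LinearMap.zero_apply, ← LinearMap.mem_ker, k2, ← hD.inv C hC, (tan hi z _).2 ⟨v, rfl⟩]
  exact zero_mem _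

end OneH

open OneH

theorem one_of (h1 : COMP) (h2 : FAC) (h3 : INT) (h4 : PLQ) : ONE := by
  intro n d X S D hD C hC hx
  refine ⟨hC, fun x y ⟨C', hC', c', k1, k2⟩ => ?_⟩
  obtain ⟨E, f, g, hE⟩ := h1 C C' ⟨x⟩
  have hSE := hD.cls.cmp C C' E f g hC hC' hE
  obtain ⟨k, F, i, hi, -⟩ := fib C x
  obtain ⟨k', F', j, hj, hc⟩ := fib E x
  have hb : HolM k n fun w => C.b (i w) := C.sb.hol.comp hi.hol
  have hb' : HolM k' n fun w => E.b (j w) := E.sb.hol.comp hj.hol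
  obtain ⟨c, c1, c2⟩ := hx x
  obtain ⟨w₀, rfl⟩ := hi.ex (show c ∈ C.a ⁻¹' {x} from c1)
  obtain ⟨c₀, l1, l2⟩ := C'.dg (C.b (i w₀))
  obtain ⟨z₁, ⟨m1, m2⟩, -⟩ := hE.cart.uniq (i w₀) c₀ l1.symm
  obtain ⟨w₁, rfl⟩ := hj.ex (show z₁ ∈ E.a ⁻¹' {x} from (hE.a z₁).trans (m1 ▸ c1))
  have e1 : E.b (j w₁) = C.b (i w₀) := (hE.b _).trans (m2 ▸ l2)
  have hd : d ≤ n := by simpa only [hD.rk, finrank_fin_fun] using (D x).finrank_le
  obtain ⟨h, -, -, -, hh, -⟩ := h3 S D hD (Nat.add_sub_cancel' hd) (C.b (i w₀))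
  have e2 := h4 (fun w => C.b (i w)) h w₀ (hb.at _) hh.hol hh.sbm (by
    rw [hh.ker.self_of_nhds, ← c2]
    rintro _ ⟨v, hv, rfl⟩
    obtain ⟨u, rfl⟩ := (tan hi w₀ v).1 hv
    exact ⟨u, cmp (C.sb.hol.at _) (hi.hol.at w₀) u⟩) (cst h2 hD hC hi hh)
  have e3 := ((Ana.remm k n F X _ hb).pre hb').eq_univ (x := w₁) (by
    filter_upwards [hb'.cont.continuousAt.eventually (e1.symm ▸ e2),
      cst h2 hD hSE hj (e1.symm ▸ hh)] with w a b using a b)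
  obtain ⟨c₂, n1, n2⟩ := C.dg x
  obtain ⟨z₂, ⟨p1, p2⟩, -⟩ := hE.cart.uniq c₂ c' (n2.trans k1.symm)
  obtain ⟨w₂, rfl⟩ := hj.ex (show z₂ ∈ E.a ⁻¹' {x} from (hE.a z₂).trans (p1 ▸ n1))
  obtain ⟨w, hw⟩ := eq_univ_iff_forall.1 e3 w₂
  exact ⟨i w, hi.fib w, hw.trans ((hE.b _).trans (p2 ▸ k2))⟩

end Vale.Agent.P280Z.Sq
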