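import Vale.Agent.P280Z.Sq.Sk
import Vale.Agent.P280Z.Mp.Quo
import Vale.Agent.P281Z.Mf.Loc

/-!
# P280Z, block Sq: the quotient by a relation with boxes
-/

open scoped Manifold ContDiff Topology
open Set Filter
open Vale.Agent.P272.K Vale.Agent.P281Z
open Vale.Agent.P277Z (at_chart)

noncomputable section

namespace Vale.Agent.P280Z.Sq

/-- **QB** -/
theorem qb : QB := by
  intro n q X R hR hc hτ hb
  choose h h1 h2 W W1 W2 using hb
  choose ψ p1 p2 p3 using fun x => (h2 x).sec (h1 x)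
  have t0 : ∀ x, Tendsto (ψ x) (𝓝 (h x x)) (𝓝 x) := fun x =>
    (p2 x).cont.tendsto.mono_right (congrArg 𝓝 (p1 x)).le
  choose B b1 b2 b3 using fun x => _root_.eventually_nhds_iff.1 ((p2 x).near.and ((p3 x).and
    ((t0 x).eventually ((eventually_mem_nhds_iff.2 (W1 x)).and (h1 x).near))))
  have key : ∀ i, ∀ v ∈ B i, ∀ᶠ y in 𝓝 (ψ i v), h i y ∈ B i ∧ R y (ψ i (h i y)) := by
    intro i v hv
    obtain ⟨-, a1, a2, a3⟩ := b1 i v hv
    filter_upwards [a2, a3.cont.eventually ((b2 i).mem_nhds (a1.symm ▸ hv))] with y c1 c2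
    exact ⟨c2, (W2 i _ c1 _ (mem_of_mem_nhds (b1 i _ c2).2.2.1)).2 (b1 i _ c2).2.1.symm⟩
  obtain ⟨Y, π, χ, q1, q2, -, q4, q5, q6⟩ := Mp.quo q X.X ⟨R, hR⟩ X.X B ψ
    (fun O hO => isOpen_iff_eventually.2 fun x ⟨y, hy, hxy⟩ => by
      obtain ⟨τ, t1, rfl, t3⟩ := hτ x y hxy
      filter_upwards [t1.cont.eventually (hO.mem_nhds hy), t3] with x' a1 a2
      exact ⟨_, a1, a2⟩)
    hc ⟨univ, isCompact_univ, fun x => ⟨x, trivial, hR.refl x⟩⟩ b2
    (fun i v hv => (b1 i v hv).1.cont.continuousWithinAt)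
    (fun i v hv v' hv' k => (b1 i v hv).2.1.symm.trans (((W2 i _ (mem_of_mem_nhds
      (b1 i v hv).2.2.1) _ (mem_of_mem_nhds (b1 i v' hv').2.2.1)).1 k).trans (b1 i v' hv').2.1))
    (fun x => ⟨x, h x x, b3 x, (p1 x).symm ▸ hR.refl x⟩)
    (fun i v hv => ⟨h i, (b1 i v hv).2.2.2.cont, (b1 i v hv).2.1, (key i v hv).mono fun _ a => a.2⟩)
    (fun i j v hv v' hv' k => by
      obtain ⟨τ, t1, t2, t3⟩ := hτ _ _ k
      have a1 := (b1 i v hv).1
      have a2 := key j v' hv'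
      have a3 := (b1 j v' hv').2.2.2
      rw [← t2] at a2 a3
      refine ⟨fun u => h j (τ (ψ i u)),
        (contMDiffAt_iff_contDiffAt.1 ((a3.cmp t1).cmp a1)).analyticAt,
        (congrArg (h j) t2).trans (b1 j v' hv').2.1, ?_⟩
      filter_upwards [a1.cont.eventually (t3.and (t1.cont.eventually a2))] with u c
      exact hR.trans c.1 c.2.2)
  have k : ∀ x, HolA n q π x ∧ Sbm n q π x := fun x => by
    have a1 := key x _ (b3 x)
    rw [p1] at a1
    have a2 : ∀ᶠ y in 𝓝 x, h x y ∈ (χ x).target ∧ (χ x).symm (h x y) = π y := a1.mono fun y c =>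
      ⟨(q6 x).1.symm ▸ c.1, ((q6 x).2 _ c.1).trans ((q4 _ _).2 c.2).symm⟩
    have a3 : χ x ∈ atlas (Cm q) Y.X := q5 ▸ mem_range_self x
    have a4 : HolA n q π x := (holA_symm (fun a => (h1 x).hol (a := fun z => z a)
      (hol_chart (at_chart (h x x)) a)) a3 a2.self_of_nhds.1).cng (a2.mono fun _ c => c.2)
    have he := at_chart (n := n) x
    refine ⟨a4, .of_chart a4 he ⟨a3, a2.self_of_nhds.2 ▸ (χ x).map_target a2.self_of_nhds.1⟩ ?_⟩
    have a5 : df π (chartAt (Cm n) x) (χ x) x =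
        df (h x) (chartAt (Cm n) x) (chartAt (Cm q) (h x x)) x :=
      EventuallyEq.fderiv_eq ((at_ev he a2).mono fun _ c =>
        (congrArg (χ x) c.2.symm).trans ((χ x).right_inv c.1))
    exact a5 ▸ h2 x _ _ he (at_chart _)
  exact ⟨Y, π, ⟨fun x => (k x).1, fun x => (k x).2⟩, q2, q4⟩

end Vale.Agent.P280Z.Sq
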