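import Vale.Agent.P280Z.Sq.Api
import Vale.Agent.P280Z.Ma.Lha

/-!
# P280Z, block Sq: the quotient by a set of families
-/

open scoped Manifold ContDiff Topology
open Set Filter Function
open Vale.Agent.P272.K Vale.Agent.P285.H281.FD Vale.Agent.P281Z

noncomputable section

namespace Vale.Agent.P280Z.Sq

namespace QjH
variable {n q : ℕ} {X : Mf n} {Y : Mf q} {π : X.X → Y.X}

theorem fac (F : Pf X) (hπ : Sub n q π) (h : ∀ x y, F.Lk x y → π x = π y) :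
    ∃ g : F.K.X → Y.X, Sub F.k q g ∧ ∀ u, π (F.e u) = g (F.p u) := by
  choose s hs using fun l => (F.cp l).1
  have h1 : ∀ u, π (F.e u) = π (F.e (s (F.p u))) := fun u =>
    h _ _ ⟨u, _, (hs (F.p u)).symm, rfl, rfl⟩
  have h2 : Sub (F.k + 1) q fun u => π (F.e (s (F.p u))) := funext h1 ▸ Sub.comp hπ F.se
  have h3 : HolM F.k q fun l => π (F.e (s l)) := fun l =>
    (show F.p (s l) = l from hs l) ▸ (F.sp.sbm (s l)).desc (F.sp.hol.at _) (h2.hol.at _)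
  exact ⟨_, ⟨h3, fun l => (show F.p (s l) = l from hs l) ▸
    Sbm.of_comp (h3.at _) (F.sp.hol.at (s l)) (h2.sbm _)⟩, h1⟩

theorem ph {T : CT} (hT : T.OK) (F : Pf X) (hπ : HolM n q π) {g : F.K.X → Y.X} (hg : HolM F.k q g)
    (h : ∀ u, π (F.e u) = g (F.p u)) (b : T.H Y) : F.ph T (T.pull hπ b) = 0 := by
  rw [Pf.ph, ← hT.rg.pull_comp F.se.hol hπ (hπ.comp F.se.hol) fun _ => rfl,
    hT.rg.pull_comp F.sp.hol hg _ h, ← one_mul (T.pull F.sp.hol _), hT.pu.proj F.sp,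
    Ma.push_one hT F.sp, zero_mul]

end QjH

theorem qj_of (cm : COMP) (qt : QT) (ks : KSUB) (sf : SF) (lk : LNK) : QJ := by
  intro T hT hR n X ι F J hX
  obtain ⟨hc, hF⟩ := (fa_iff hT).1 hX
  have kX : X.Kah := (hT.po.kah X).2 ⟨_, hF⟩
  let S : Cor X → Prop := fun C => (∀ c, Ch F J (C.a c) (C.b c)) ∧
    ∀ u, (∀ j ∈ J, (F j).ph T u = 0) → T.pull C.sa.hol u = T.pull C.sb.hol u
  let I : Cor X := ⟨n, X, fun x => x, fun x => x, sub_id, sub_id, kX,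
    fun _ => isConnected_singleton, fun _ => isConnected_singleton, fun x => ⟨x, rfl, rfl⟩⟩
  have hI : S I := ⟨fun _ => .refl _, fun _ _ => rfl⟩
  have hS : Cls S := ⟨⟨I, hI⟩, fun C h => ⟨fun c => .symm _ _ (h.1 c), fun u k => (h.2 u k).symm⟩,
    fun C C' E f g h h' k => ⟨fun z => by
      rw [k.a, k.b]
      exact .trans _ _ _ (h.1 _) (k.cart.comm z ▸ h'.1 _), fun u hu => by
      rw [hT.rg.pull_comp k.cart.sf'.hol C.sa.hol _ k.a, hT.rg.pull_comp k.cart.hg' C'.sb.hol _ k.b,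
        h.2 u hu, ← h'.2 u hu,
        ← hT.rg.pull_comp k.cart.hg' C'.sa.hol (C'.sa.hol.comp k.cart.hg') fun _ => rfl,
        hT.rg.pull_comp k.cart.sf'.hol C.sb.hol _ k.cart.comm]⟩⟩
  have hr : ∀ x y, Rl S x y ↔ Ch F J x y := fun x y => ⟨fun ⟨C, h, c, h1, h2⟩ => h1 ▸ h2 ▸ h.1 c,
    fun h => by
    induction h with
    | rel x y h =>
      obtain ⟨j, hj, h⟩ := h
      obtain ⟨C, h1, h2⟩ := lk T hT (F j)
      exact ⟨C, ⟨fun c => .rel _ _ ⟨j, hj, (h1 _ _).2 ⟨c, rfl, rfl⟩⟩, fun u hu => h2 u (hu j hj)⟩,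
        (h1 x y).1 h⟩
    | refl x => exact ⟨I, hI, x, rfl, rfl⟩
    | symm x y _ h =>
      obtain ⟨C, h, c, h1, h2⟩ := h
      exact ⟨C.swap, hS.swap C h, c, h2, h1⟩
    | trans x y z _ _ h h' =>
      obtain ⟨C, h, c, h1, h2⟩ := h
      obtain ⟨C', h', c', h1', h2'⟩ := h'
      obtain ⟨E, f, g, k⟩ := cm C C' ⟨x⟩
      obtain ⟨w, ⟨k1, k2⟩, -⟩ := k.cart.uniq c c' (h2.trans h1'.symm)
      exact ⟨E, hS.cmp _ _ _ _ _ h h' k, w, by rw [k.a, k1, h1], by rw [k.b, k2, h2']⟩⟩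
  obtain ⟨q, Y, π, C, h1, h2, h3, h4, h5⟩ := qt T hT hR S hc hF hS
  have h6 : ∀ y, IsConnected (π ⁻¹' {y}) := fun y => by
    obtain ⟨x, rfl⟩ := h2 y
    have e : π ⁻¹' {π x} = C.b '' (C.a ⁻¹' {x}) := ext fun z =>
      ⟨fun hz => h4.2 x z ((h3 _ _).1 (Eq.symm hz)),
        fun ⟨c, k1, k2⟩ => ((h3 _ _).2 ⟨C, h4.1, c, k1, k2⟩).symm⟩
    exact e ▸ (C.ca x).image _ C.sb.hol.cont.continuousOn
  have h7 := fun j (hj : j ∈ J) => QjH.fac (F j) h1 fun x y h =>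
    (h3 x y).2 ((hr x y).2 (.rel _ _ ⟨j, hj, h⟩))
  exact ⟨q, Y, π, h1, fun x y => (h3 x y).trans (hr x y), h6, ks X Y π h1 h2 kX,
    fun a ha => sf T hT h1 C hc kX h6 (fun c => (h3 _ _).2 ⟨C, h4.1, c, rfl, rfl⟩) h5 a
      (h4.1.2 a ha), h7, fun j hj b => let ⟨_, g1, g2⟩ := h7 j hj; QjH.ph hT _ _ g1.hol g2 b⟩

end Vale.Agent.P280Z.Sq
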