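import Vale.Agent.P280Z.Sq.Api

/-!
# P280Z, block Sq: the quotient by a class of correspondences
-/

open scoped Manifold ContDiff Topology
open Set Filter Function Module
open Vale.Agent.P272.K Vale.Agent.P285.H281.FD Vale.Agent.P281Z

noncomputable section

namespace Vale.Agent.P280Z.Sq

theorem qt_of (hD : DIST) (hI : INT) (hO : ONE) (hX : TRX) (hL : LEAF) (hH : HOL) (hQ : QB) :
    QT := by
  intro T hT hR n X S cX hF hS
  obtain ⟨d, D, h⟩ := hD T hT S cX ((hT.po.kah X).2 ⟨_, hF⟩) hS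
  obtain ⟨x₀⟩ := cX.toNonempty
  obtain ⟨q, hq⟩ : ∃ q, d + q = n := Nat.exists_eq_add_of_le' (n := n) (m := d) (by
    simpa [h.rk] using (D x₀).finrank_le) |>.imp fun _ k => by omega
  obtain ⟨C, c1, c2⟩ := h.ex
  have top := hO S D h C c1 c2
  have gc : Continuous fun c => (C.a c, C.b c) := C.sa.hol.cont.prodMk C.sb.hol.cont
  have box : ∀ x, ∃ f : X.X → Cm q, FI q D f x ∧
      ∃ W ∈ 𝓝 x, ∀ y ∈ W, ∀ y' ∈ W, (Rl S y y' ↔ f y = f y') := fun x => by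
    obtain ⟨f, -, -, -, hf, -⟩ := hI S D h hq x
    obtain ⟨W, w1, w2⟩ := (hL S D h hq C top x f hf).2.2
    have k := gc.isClosedMap.eventually_nhds_fiber (p := fun c => f (C.b c) = f (C.a c)) (x, x)
      fun c hc => hH T hT hR S D hF h hq C top c f
        ((congrArg Prod.snd hc).trans (congrArg Prod.fst hc).symm)
        ((show x = C.a c from (congrArg Prod.fst hc).symm) ▸ hf)
    rw [nhds_prod_eq] at k
    obtain ⟨W', w3, w4⟩ := (eventually_prod_self_iff (r := fun y y' => ∀ c ∈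
      (fun c => (C.a c, C.b c)) ⁻¹' {(y, y')}, f (C.b c) = f (C.a c))).1 k
    refine ⟨f, hf, _, inter_mem w1 w3, fun y hy y' hy' => ⟨fun l => ?_, w2 y hy.1 y' hy'.1⟩⟩
    obtain ⟨c, rfl, rfl⟩ := top.2 y y' l
    exact (w4 _ hy.2 _ hy'.2 c rfl).symm
  obtain ⟨Y, π, p1, p2, p3⟩ := hQ (q := q) X (Rl S)
    ⟨fun x => ⟨C, c1, C.dg x⟩, fun ⟨B, b1, c, b2, b3⟩ => ⟨B.swap, hS.swap B b1, c, b3, b2⟩,
      (hX (q := q) S D h).2.2.2.2 _ _ _⟩
    (by
      rw [show {p : X.X × X.X | Rl S p.1 p.2} = range fun c => (C.a c, C.b c) from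
        Subset.antisymm (fun p hp => (top.2 _ _ hp).imp fun c k => Prod.ext k.1 k.2)
          (by rintro _ ⟨c, rfl⟩; exact ⟨C, c1, c, rfl, rfl⟩)]
      exact (isCompact_range gc).isClosed)
    (by
      rintro _ _ ⟨B, b1, c, rfl, rfl⟩
      obtain ⟨s, s1, s2, s3⟩ := (B.sa.sbm c).sec (B.sa.hol.at c)
      exact ⟨fun y => B.b (s y), (B.sb.hol.at _).cmp s2, congrArg B.b s1,
        s3.mono fun y hy => ⟨B, b1, s y, hy, rfl⟩⟩)
    fun x => (box x).imp fun f k => ⟨k.1.hol, k.1.sbm, k.2⟩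
  obtain ⟨c, -, c3⟩ := c2 x₀
  refine ⟨q, Y, π, C, p1, p2, p3, top, c, c3.trans (Eq.symm ?_)⟩
  obtain ⟨f, hf, W, w1, w2⟩ := box (C.b c)
  obtain ⟨s, s1, s2, s3⟩ := (p1.sbm (C.b c)).sec (p1.hol.at _)
  have k : ∀ᶠ y in 𝓝 (C.b c), f y = f (s (π y)) := by
    filter_upwards [w1, (s2.cmp (p1.hol.at _)).cont.eventually_mem (s1.symm ▸ w1 :),
      p1.hol.cont.continuousAt.eventually s3] with y k1 k2 k3
    exact (w2 _ k1 _ k2).1 ((p3 _ _).1 k3.symm)
  refine Submodule.eq_of_le_of_finrank_eq (fun v hv => ?_) ?_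
  · rw [← hf.ker.self_of_nhds, LinearMap.mem_ker, Df_congr k, Df_comp (g := fun z => f (s z))
      (HolA.cmp (s1.symm ▸ hf.hol :) s2) (p1.hol.at _), LinearMap.mem_ker.1 hv, map_zero]
  · have := rk_ker (p1.sbm (C.b c))
    rw [h.rk]
    omega

end Vale.Agent.P280Z.Sq
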