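import Vale.Agent.P280Z.Sq.Sk
import Vale.Agent.P280Z.Ma.Nsx
import Vale.Agent.P280Z.Co.Fp

/-!
# P280Z, block Sq, row RNK: the maximal rank is attained over every point
-/

open Set Module
open Vale.Agent.P272.K Vale.Agent.P281Z Vale.Agent.P280Z.Ma
open Vale.Agent.P277Z.Slc (at_chartAt)

noncomputable section

namespace Vale.Agent.P280Z.Sq

namespace RnkH

variable {m n r : ℕ} {U : Mf m} {X : Mf n} {Z : Mf r} {a b : U.X → X.X} {i : Z.X → U.X} {x : X.X}

theorem cmp (hb : HolM m n b) (hi : HolM r m i) (z : Z.X) :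
    Df r n (fun z => b (i z)) z = Df m n b (i z) ∘ₗ Df r m i z :=
  congrArg ContinuousLinearMap.toLinearMap
    (df_comp (hb.at _) (hi.at z) (at_chartAt z) (at_chartAt _) (at_chartAt _))

theorem ker (ha : Sub m n a) (hm : m = n + r) (c : U.X) :
    finrank ℂ (LinearMap.ker (Df m n a c)) = r := by
  have h := LinearMap.finrank_range_add_finrank_ker (Df m n a c)
  rw [(LinearMap.range_eq_top (f := Df m n a c)).2 (ha.sbm c _ _ (at_chartAt c) (at_chartAt _)),
    finrank_top, finrank_fin_fun, finrank_fin_fun] at h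
  omega

theorem inj (h : Emb r m i (a ⁻¹' {x})) (z : Z.X) : Function.Injective (Df r m i z) :=
  h.imm z _ _ (at_chartAt z) (at_chartAt _)

theorem rng (ha : Sub m n a) (hb : HolM m n b) (hm : m = n + r) (h : Emb r m i (a ⁻¹' {x}))
    (z : Z.X) : LinearMap.range (Df r n (fun z => b (i z)) z) =
      (LinearMap.ker (Df m n a (i z))).map (Df m n b (i z)) := by
  have h1 : Df m n a (i z) ∘ₗ Df r m i z = 0 := by
    rw [← cmp ha.hol h.hol, show (fun z => a (i z)) = fun _ => x from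
      funext fun z => h.rng.subset (mem_range_self z)]
    ext v : 1
    simp [Df, df]
  rw [cmp hb h.hol, LinearMap.range_comp, Submodule.eq_of_le_of_finrank_eq
    (LinearMap.range_le_ker_iff.2 h1)
    (by rw [ker ha hm, LinearMap.finrank_range_of_inj (inj h z), finrank_fin_fun])]

end RnkH

open RnkH in
theorem rnk : RNK := by
  intro T hT n X C k hX kX ⟨c0, h0⟩ x
  by_contra hn
  obtain ⟨r, hr⟩ := Nat.exists_eq_add_of_le (C.sa.sbm c0).le
  obtain ⟨s, hs⟩ := Nat.exists_eq_add_of_le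
    (h0.trans ((Submodule.finrank_map_le _ _).trans_eq (ker C.sa hr c0)))
  obtain ⟨w, hw⟩ := (hT.po.kah X).1 kX
  obtain ⟨o, ho⟩ := (hT.po.kah C.C).1 C.kah
  have d1 : T.Dg C.C (k + s) (T.pull C.sb.hol w ^ k * o ^ s) := hT.rg.dg_mul _ _ _ _ _
    (dg_pow hT (dg_pull hT _ (hT.po.deg hw)) k) (dg_pow hT (hT.po.deg ho) s)
  obtain ⟨c, hc⟩ := hT.rg.h0 X hX.toPreconnectedSpace
    (T.push C.a (T.pull C.sb.hol w ^ k * o ^ s)) (by
      unfold CT.Dg
      rw [hT.pu.deg C.sa r hr, zero_add, hs, d1])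
  obtain ⟨Z, i, h, hi⟩ := fibre hT fp C.sa hr x
  obtain ⟨Z', i', h', hi'⟩ := fibre hT fp C.sa hr (C.a c0)
  obtain ⟨z, rfl⟩ : c0 ∈ range i' := h'.rng.symm ▸ rfl
  have e1 := hi _ _ hc
  have e2 := hi' _ _ hc
  rw [map_mul, ← map_pow, ← hT.rg.pull_comp h.hol C.sb.hol (C.sb.hol.comp h.hol) fun _ => rfl,
    ← dg_pow hT (hT.po.deg hw) k, hT.rg.van _ k fun z => by
      rw [rng C.sa C.sb.hol hr h z]
      exact not_le.1 fun e => hn ⟨i z, h.rng.subset (mem_range_self z), e⟩, zero_mul,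
    map_zero] at e1
  rw [map_mul, map_pow, map_pow,
    ← hT.rg.pull_comp h'.hol C.sb.hol (C.sb.hol.comp h'.hol) fun _ => rfl, ← e1] at e2
  refine (hT.po.pos k s z (hT.po.pull (C.sb.hol.comp h'.hol) hw) (kc_pull hT h'.hol
    (fun y => (injective_iff_map_eq_zero _).1 (inj h' y)) ho) hs.symm rfl ?_).ne' e2
  have e3 := LinearMap.finrank_range_add_finrank_ker (Df r n (fun z => C.b (i' z)) z)
  rw [rng C.sa C.sb.hol hr h' z, finrank_fin_fun] at e3
  exact (Nat.add_le_add_right h0 _).trans_eq e3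

end Vale.Agent.P280Z.Sq
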