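import Vale.Agent.P280Z.Sq.Sk
import Vale.Agent.P281Z.Mf.Loc

/-!
# P280Z, block Sq: row TRX
-/

open scoped Manifold ContDiff Topology
open Set Filter
open Vale.Agent.P272.K Vale.Agent.P285.H281.FD Vale.Agent.P281Z
open Vale.Agent.P277Z (at_chart)

noncomputable section

namespace Vale.Agent.P280Z.Sq

namespace TrxH

variable {n q : ℕ} {X : Mf n}

theorem chain {m : ℕ} {Z : Mf m} {a : Z.X → X.X} {h : X.X → Cm q} {c : Z.X} (ha : HolA m n a c)
    (hh : HolA n q h (a c)) (v : Cm m) :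
    Df m q (fun z => h (a z)) c v = Df n q h (a c) (Df m n a c v) :=
  DFunLike.congr_fun (df_comp hh ha (at_chart c) (at_chart _) (at_chart _)) v

theorem tr_df (C : Cor X) {h f : X.X → Cm q} {c : C.C.X} (hh : HolA n q h (C.a c))
    (hf : HolA n q f (C.b c)) (k : C.Tr h f c) (v : Cm C.m) :
    Df n q f (C.b c) (Df C.m n C.b c v) = Df n q h (C.a c) (Df C.m n C.a c v) :=
  ((chain (C.sb.hol.at c) hf v).symm.trans
    (DFunLike.congr_fun (df_congr k (at_chart c)) v)).trans (chain (C.sa.hol.at c) hh v)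

theorem cmp (comp : COMP) {S : Cor X → Prop} (hS : Cls S) {C C' : Cor X} (h : S C) (h' : S C')
    {c : C.C.X} {c' : C'.C.X} (e : C'.a c' = C.b c) : ∃ E, S E ∧ ∃ w, E.a w = C.a c ∧
      E.b w = C'.b c' ∧ ∀ h f g : X.X → Cm q, C.Tr h f c → C'.Tr f g c' → E.Tr h g w := by
  obtain ⟨E, φ, ψ, k⟩ := comp C C' ⟨C.a c⟩
  obtain ⟨w, ⟨rfl, rfl⟩, -⟩ := k.cart.uniq c c' e.symm
  refine ⟨E, hS.cmp C C' E φ ψ h h' k, w, k.a w, k.b w, fun h f g k1 k2 => ?_⟩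
  filter_upwards [k.cart.sf'.hol.cont.continuousAt.eventually k1,
    k.cart.hg'.cont.continuousAt.eventually k2] with z a1 a2
  rw [k.a, k.b, a2, k.cart.comm, a1]

end TrxH

open TrxH in
/-- row TRX -/
theorem trx_of (comp : COMP) (fac : FAC) : TRX := by
  intro n d q X S D hD
  refine ⟨fun C hC c h hh => ?_, fun C hC c h f hh k => ?_, fun C c h f f' k k' => ?_, ?_, ?_⟩
  · refine (fac.1 C.b (fun z => h (C.a z)) c (C.sb.hol.at c) (C.sb.sbm c)
      (hh.hol.cmp (C.sa.hol.at c)) ?_).imp fun _ k => k.2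
    filter_upwards [C.sa.hol.cont.continuousAt.eventually (hh.hol.near.and hh.ker)] with w a v hv
    rw [chain (C.sa.hol.at w) a.1, ← LinearMap.mem_ker, a.2, hD.inv C hC, hv]
    exact zero_mem _
  · have k' : ∀ᶠ z in 𝓝 c, h (C.a z) = f (C.b z) := k.mono fun _ => Eq.symm
    have h1 : HolA n q f (C.b c) :=
      (C.sb.sbm c).desc (C.sb.hol.at c) ((hh.hol.cmp (C.sa.hol.at c)).cng k')
    refine ⟨h1, Sbm.of_comp h1 (C.sb.hol.at c)
      ((Sbm.comp hh.hol (C.sa.hol.at c) hh.sbm (C.sa.sbm c)).cng k'), ?_⟩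
    filter_upwards [(C.sb.sbm c).ev (C.sb.hol.at c) ((k.eventually_nhds.and
      (C.sb.hol.cont.continuousAt.eventually h1.near)).and
      (C.sa.hol.cont.continuousAt.eventually (hh.hol.near.and hh.ker)))]
    rintro _ ⟨z, ⟨⟨a1, a2⟩, a3, a4⟩, rfl⟩
    ext w
    obtain ⟨v, rfl⟩ : ∃ v, Df C.m n C.b z v = w := C.sb.sbm z _ _ (at_chart _) (at_chart _) w
    rw [LinearMap.mem_ker, tr_df C a3 a2 a1, ← LinearMap.mem_ker, a4, hD.inv C hC]
  · filter_upwards [(C.sb.sbm c).ev (C.sb.hol.at c) (k.and k')]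
    rintro _ ⟨z, a, rfl⟩
    exact a.1.trans a.2.symm
  · rintro _ _ _ h f g ⟨C, hC, c, rfl, rfl, k⟩ ⟨C', hC', c', e, rfl, k'⟩
    obtain ⟨E, hE, w, a1, a2, a3⟩ := cmp (q := q) comp hD.cls hC hC' e
    exact ⟨E, hE, w, a1, a2, a3 h f g k k'⟩
  · rintro _ _ _ ⟨C, hC, c, rfl, rfl⟩ ⟨C', hC', c', e, rfl⟩
    obtain ⟨E, hE, w, a1, a2, -⟩ := cmp (q := q) comp hD.cls hC hC' e
    exact ⟨E, hE, w, a1, a2⟩

end Vale.Agent.P280Z.Sq
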