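import Vale.Agent.P280Z.Ma.Defs
import Vale.Agent.P280Z.Gm.Defs
import Vale.Agent.P280Z.Stmt
import Vale.Agent.P281Z.Mf.Api

/-!
# P280Z, block Sq: quotients by chains of rational curves (definitions, output)
-/

open scoped Manifold ContDiff Topology Matrix
open Set Filter
open Vale.Agent.P272.K Vale.Agent.P285.H281.FD Vale.Agent.P281Z
open Vale.Agent.P277Z.Slc (lin)
open Vale.Agent.P277.HD (pull)
open Vale.Agent.P280Z.Mp (BF M2 ev act Eqs Crv CD Cone Fam)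
open Vale.Agent.P280Z.Gm (HRR Fa)

noncomputable section

namespace Vale.Agent.P280Z.Sq

/-! ### Unsplit families which need not have minimal degree -/

/-- the standing hypotheses on the class `M` of curves -/
structure Hy {n N r : ℕ} (V : Mf n) (P : Eqs r N) (e : ℕ) (pt : Cm N → V.X) (d : ℕ)
    (M : BF d N → Prop) : Prop where
  cone : Cone V P e pt
  pos : 0 < d
  free : ∀ a, M a → ∀ g : M2, act a g = a → ∃ c : ℂ, c ^ d = 1 ∧ g = c • (1 : M2)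
  gen : ∀ a : BF d N, Crv P a → Mp.Gen P a

/-- row NEWF: one anticanonical embedding; for every nonconstant map a connected unsplit family
which is not contracted -/
def NEWF : Prop := ∀ {n : ℕ} (V : Mf n), 0 < n → Fano n V.X → NefRC n V.X →
  ∃ (N r δ : ℕ) (P : Eqs r N) (pt : Cm N → V.X), Cone V P δ pt ∧
    ∀ {q : ℕ} (Y : Mf q) (π : V.X → Y.X), HolM n q π → (∃ x y, π x ≠ π y) →
    ∃ (d k : ℕ) (F : Fam V P pt d (k + 4) k), Hy V P δ pt d F.M ∧ ConnectedSpace F.U.X ∧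
      ∃ u v, F.p u = F.p v ∧ π (F.e u) ≠ π (F.e v)

/-! ### Abstract families -/

/-- a family `K ← U → X` of projective lines -/
structure Pf {n : ℕ} (X : Mf n) : Type 1 where
  k : ℕ
  K : Mf k
  U : Mf (k + 1)
  p : U.X → K.X
  e : U.X → X.X
  Tb : Bd U.X
  Q : P1D p Tb
  sp : Sub (k + 1) k p
  se : Sub (k + 1) n e
  kU : U.Kah
  kK : K.Kah
  cU : ConnectedSpace U.X
  cp : ∀ l, IsConnected (p ⁻¹' {l})
  ce : ∀ x, IsConnected (e ⁻¹' {x})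

namespace Pf
variable {n : ℕ} {X : Mf n} (F : Pf X)

/-- two points on one curve -/
def Lk (x y : X.X) : Prop := ∃ u v, F.p u = F.p v ∧ F.e u = x ∧ F.e v = y

/-- `p_* e^*` -/
def ph (T : CT) (a : T.H X) : T.H F.K := T.push F.p (T.pull F.se.hol a)

/-- `l` is the degree on the curves -/
def Deg (T : CT) (l : T.H X →ₗ[ℝ] ℝ) : Prop := ∀ a, T.Dg X 1 a → F.ph T a = algebraMap ℝ _ (l a)

/-- a polarisation `η` of degree one on the curves -/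
structure Pol (T : CT) (η : T.H X) : Prop where
  kc : T.Kc X η
  ex : ∃ (lam : T.H F.K) (c : ℝ), T.Kc F.K lam ∧
    T.c1 F.U F.Tb = (2 : ℝ) • T.pull F.se.hol η - T.pull F.sp.hol lam ∧
    T.Kc F.U (T.c1 F.U F.Tb + c • T.pull F.sp.hol lam)
  inv : ∀ (m : ℕ) (E : VB F.U.X), IsRel F.e m E → ∀ l, T.dem F.sp.hol
    (∑ j ∈ Finset.range (l + 1),
      (l.choose j : ℝ) • (T.ps F.U E j * ((2 : ℝ)⁻¹ • T.c1 F.U F.Tb) ^ (l - j))) = 0

/-- `F` comes from the family `G` -/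
def Of {N r d D k : ℕ} {P : Eqs r N} {pt : Cm N → X.X} (G : Fam X P pt d D k) : Prop :=
  ∃ Q sp se kU kK cU cp ce, F = ⟨k, G.K, G.U, G.p, G.e, P280Z.Tb G, Q, sp, se, kU, kK, cU, cp, ce⟩ ∧
    ∀ (m : ℕ) (E : VB G.U.X), IsRel G.e m E → Q.Inv E

/-- `G` is the restriction of `F` along `i` -/
structure Res {d : ℕ} {Z : Mf d} (G : Pf Z) (i : Z.X → X.X) (κ : G.K.X → F.K.X)
    (j : G.U.X → F.U.X) : Prop where
  cp : Cart F.p κ G.p j
  ce : Cart F.e i G.e j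
  tb : G.Tb = pull j F.Tb

end Pf

/-- row PFX: the abstract family of a family of curves -/
def PFX : Prop := ∀ T : CT, T.OK → HRR T → ∀ {n N r e d D k : ℕ} {V : Mf n} {P : Eqs r N}
  {pt : Cm N → V.X} (G : Fam V P pt d D k), Fano n V.X → Hy V P e pt d G.M → ConnectedSpace G.U.X →
  ∃ F : Pf V, F.Of G ∧ F.Pol T ((d : ℝ)⁻¹ • T.c1 V (O1 P pt))

/-- row NSA: the numerical structure of an abstract family -/
def NSA : Prop := ∀ T : CT, T.OK → ∀ {n : ℕ} {X : Mf n} (F : Pf X) (η : T.H X), F.Pol T η →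
  ConnectedSpace X.X → ∀ m, F.k + 1 = n + m → ∀ E, IsRel F.e m E →
  (T.ns F.sp.hol F.se.hol η F.Tb E).OK0 n m ∧
    F.ph T (T.ps X (VB.tan n X.X) 1) = algebraMap ℝ _ ((m : ℝ) + 2) ∧
    ∀ (Z : Mf m) (i : Z.X → F.U.X) (x : X.X) (h : Emb m (F.k + 1) i (F.e ⁻¹' {x})),
      T.Kc Z (T.pull h.hol (-T.c1 F.U F.Tb))

/-- chains of curves of the families in `J` -/
def Ch {n : ℕ} {X : Mf n} {ι : Type} (F : ι → Pf X) (J : Set ι) : X.X → X.X → Prop :=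
  Relation.EqvGen fun x y => ∃ j ∈ J, (F j).Lk x y

/-- `π` is the quotient by the chains of curves of the families in `J` -/
structure Qt (T : CT) {n q : ℕ} {X : Mf n} {ι : Type} (F : ι → Pf X) (J : Set ι) (Y : Mf q)
    (π : X.X → Y.X) : Prop where
  sub : Sub n q π
  rel : ∀ x y, π x = π y ↔ Ch F J x y
  conn : ∀ y, IsConnected (π ⁻¹' {y})
  kah : Y.Kah
  s4 : ∀ a, (∀ j ∈ J, (F j).ph T a = 0) → ∃ b, a = T.pull sub.hol b
  fac : ∀ j ∈ J, ∃ g : (F j).K.X → Y.X, Sub (F j).k q g ∧ ∀ u, π ((F j).e u) = g ((F j).p u)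
  ph : ∀ j ∈ J, ∀ b, (F j).ph T (T.pull sub.hol b) = 0

/-- a system of families whose classes are a basis of the second homology -/
structure Bas (T : CT) {n ρ : ℕ} {X : Mf n} (F : Fin ρ → Pf X) (l : Fin ρ → T.H X →ₗ[ℝ] ℝ) :
    Prop where
  pol : ∀ j, ∃ η, (F j).Pol T η
  deg : ∀ j, (F j).Deg T (l j)
  inj : ∀ a, T.Dg X 1 a → (∀ j, l j a = 0) → a = 0
  onto : ∀ c : Fin ρ → ℝ, ∃ a, T.Dg X 1 a ∧ ∀ j, l j a = c j

/-- the fibre `Z` of the quotient by `J`, with the restricted families -/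
structure Fib (T : CT) {n d ρ : ℕ} {X : Mf n} (F : Fin ρ → Pf X) (l : Fin ρ → T.H X →ₗ[ℝ] ℝ)
    (J : Set (Fin ρ)) {Z : Mf d} {i : Z.X → X.X} (hi : HolM d n i) : Prop where
  fano : Fano d Z.X
  can : T.c1 Z (Bd.can d Z.X) = T.pull hi (T.c1 X (Bd.can n X.X))
  res : ∃ (G : J → Pf Z) (l' : J → T.H Z →ₗ[ℝ] ℝ), (∀ j : J, ∃ κ u, (F j).Res (G j) i κ u) ∧
    (∀ j, ∃ η, (G j).Pol T η) ∧ (∀ j, (G j).Deg T (l' j)) ∧
    (∀ j : J, ∀ a, T.Dg X 1 a → l' j (T.pull hi a) = l j a) ∧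
    (∀ b, T.Dg Z 1 b → (∀ j, l' j b = 0) → b = 0) ∧ ∀ x y, Ch G univ x y

/-- **the output of the block** -/
structure Sys (T : CT) {n ρ : ℕ} {X : Mf n} (F : Fin ρ → Pf X) (l : Fin ρ → T.H X →ₗ[ℝ] ℝ) :
    Prop extends Bas T F l where
  kc : ∀ a, T.Dg X 1 a → (T.Kc X a ↔ ∀ j, 0 < l j a)
  all : ∀ x y, Ch F univ x y
  qt : ∀ J : Set (Fin ρ), ∃ (q : ℕ) (Y : Mf q) (π : X.X → Y.X), Qt T F J Y π
  base : ∀ (J : Set (Fin ρ)) {q : ℕ} (Y : Mf q) (π : X.X → Y.X), Qt T F J Y π → Fano q Y.X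
  fib : ∀ (J : Set (Fin ρ)) {q d : ℕ} (Y : Mf q) (π : X.X → Y.X), Qt T F J Y π → n = q + d →
    ∀ (y : Y.X) (Z : Mf d) (i : Z.X → X.X) (hi : Emb d n i (π ⁻¹' {y})), Fib T F l J hi.hol

/-- **the block** -/
def SYS : Prop := ∀ T : CT, T.OK → HRR T → ∀ {n : ℕ} (V : Mf n), 0 < n → Fano n V.X → NefRC n V.X →
  ∃ (N r δ ρ : ℕ) (P : Eqs r N) (pt : Cm N → V.X) (F : Fin ρ → Pf V)
    (l : Fin ρ → T.H V →ₗ[ℝ] ℝ), Sys T F l ∧ ∀ j, ∃ (d k : ℕ) (G : Fam V P pt d (k + 4) k),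
      Hy V P δ pt d G.M ∧ (F j).Of G

end Vale.Agent.P280Z.Sq
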