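import Vale.Agent.P280Z.Sq.QtA
import Vale.Agent.P280Z.Mb.Pfx
import Vale.Agent.P280Z.Nw.Newf
import Vale.Agent.P280Z.Cv.Eqs
import Vale.Agent.P280Z.Br.Top

/-!
# P280Z, block Sq: the theorem
-/

namespace Vale.Agent.P280Z.Sq

theorem sys : SYS := sys0 (Nw.newf_of Cv.eqs Br.chn) (Mb.pfx_of Gm.cov)

end Vale.Agent.P280Z.Sq
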