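import Vale.Agent.P280Z.Sq.Sk
import Vale.Agent.P280Z.Ld.Api
import Vale.Agent.P281Z.Mf.An

/-!
# P280Z, block Sq: the bases of the quotients are Fano manifolds
-/

open scoped Manifold ContDiff Topology Matrix
open Set Filter Module
open Vale.Agent.P272.K Vale.Agent.P285.H281.FD Vale.Agent.P281Z
open Vale.Agent.P277Z.Slc (lin isLB_can)
open Vale.Agent.P277Z (at_chart)
open Vale.Agent.P277 (Bd.inv)
open Vale.Agent.P277.HD (pull)

noncomputable section

namespace Vale.Agent.P280Z.Sq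

namespace BfH

variable {T : CT} {n : ℕ}

theorem lb_inv {V : Mf n} {L : Bd V.X} (h : IsLB n L) : IsLB n (Bd.inv L) where
  isOpen := h.isOpen
  cover := h.cover
  holo a b e x he ha hb := (h.holo a b e x he ha hb).inv (by
    rw [e.left_inv he.2]
    exact h.ne_zero a b x ha hb)
  ne_zero a b x ha hb := inv_ne_zero (h.ne_zero a b x ha hb)
  cocycle a b c x ha hb hc := (mul_inv _ _).symm.trans (congrArg _ (h.cocycle a b c x ha hb hc))

theorem c1_inv (hT : T.OK) {V : Mf n} {L : Bd V.X} (h : IsLB n L) :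
    T.c1 V (Bd.inv L) = -T.c1 V L := by
  have k := hT.c1.triv V ((Bd.inv L).mul L) (fun a x => L.g a.2 a.1 x) (lb_mul (lb_inv h) h)
    ⟨fun a e x he ha => h.holo _ _ e x he ha.2 ha.1, fun a b x ha hb => by
      change L.g a.2 a.1 x = (L.g a.1 b.1 x)⁻¹ * L.g a.2 b.2 x * L.g b.2 b.1 x
      rw [mul_assoc, h.cocycle _ _ _ x ha.2 hb.2 hb.1, ← h.cocycle _ _ _ x ha.2 ha.1 hb.1,
        mul_comm (L.g a.2 a.1 x), inv_mul_cancel_left₀ (h.ne_zero _ _ x ha.1 hb.1)]⟩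
    fun x a ha => h.ne_zero _ _ x ha.2 ha.1
  rw [hT.c1.mul V _ _ (lb_inv h) h] at k
  exact eq_neg_of_add_eq_zero_left k

/-- a section which does not vanish at one point -/
theorem dense {V : Mf n} [PreconnectedSpace V.X] {L : Bd V.X} (hL : IsLB n L)
    {s : L.ι → V.X → ℂ} (hs : IsSec n L s) {z : V.X} (h0 : NZ L s z) : Dense {x | NZ L s x} := by
  have hA : An n {x | ¬ NZ L s x} := fun x => (hL.cover x).elim fun a ha =>
    ⟨1, fun _ => s a, fun _ => sec_hol hs ha, (lb_near hL ha).mono fun y hy =>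
      (Ld.not_nz hL hs hy).trans (forall_const _).symm⟩
  have := (hA.thin fun e => eq_univ_iff_forall.1 e z h0).dense
  simpa only [compl_ofPred, not_not] using this

/-- a class which comes from the base comes from a class of degree two -/
theorem down (hT : T.OK) {q : ℕ} {X : Mf n} {Y : Mf q} {π : X.X → Y.X} (hπ : HolM n q π)
    {a : T.H X} (ha : T.Dg X 1 a) (h : ∃ b, a = T.pull hπ b) :
    ∃ b, T.Dg Y 1 b ∧ T.pull hπ b = a :=
  h.elim fun b hb => ⟨T.pr Y 1 b, (hT.rg.pr_pr Y 1 1 b).trans (if_pos rfl), by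
    rw [hT.rg.pull_pr, ← hb]; exact ha⟩

/-- complementary coordinates -/
theorem coord {q q' d : ℕ} {X : Mf n} {Y : Mf q} {Y' : Mf q'} {π : X.X → Y.X} {π' : X.X → Y'.X}
    (hπ : Sub n q π) (hπ' : HolM n q' π') (hd : q + d = n) (x : X.X)
    (h : ∀ v, Df n q π x v = 0 → Df n q' π' x v = 0 → v = 0) :
    ∃ t : X.X → Cm d, (∀ y, π' y = π' x → HolA n d t y) ∧
      ∀ v, Df n q π x v = 0 → Df n d t x v = 0 → v = 0 := by
  have h1 : finrank ℂ (LinearMap.ker (Df n q π x)) = finrank ℂ (Cm d) := by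
    have k := (Df n q π x).finrank_range_add_finrank_ker
    rw [(LinearMap.range_eq_top (f := Df n q π x)).2 (hπ.sbm x _ _ (at_chart _) (at_chart _)),
      finrank_top, finrank_fin_fun, finrank_fin_fun] at k
    rw [finrank_fin_fun]; omega
  obtain ⟨ψ, hψ⟩ := LinearMap.exists_leftInverse_of_injective
    ((Df n q' π' x).domRestrict (LinearMap.ker (Df n q π x))) (LinearMap.ker_eq_bot'.2 fun v hv => Subtype.ext (h v v.2 hv))
  let L : Cm q' →L[ℂ] Cm d :=
    LinearMap.toContinuousLinearMap ((LinearEquiv.ofFinrankEq _ _ h1).toLinearMap.comp ψ)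
  refine ⟨fun y => L (chartAt (Cm q') (π' x) (π' y)), fun y hy => ?_, fun v h2 h3 => ?_⟩
  · refine L.contDiff.contMDiff.contMDiffAt.comp y (ContMDiffAt.comp y ?_ (hπ'.at y))
    rw [hy]
    exact contMDiffOn_chart.contMDiffAt (chart_source_mem_nhds _ _)
  · have k := L.hasFDerivAt.comp (chartAt (Cm n) x x)
      ((hπ'.at x).an (at_chart x) (at_chart _)).differentiableAt.hasFDerivAt
    have k2 : L (Df n q' π' x v) = 0 := (DFunLike.congr_fun k.fderiv v).symm.trans h3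
    have k3 : ψ (Df n q' π' x v) = 0 := (LinearEquiv.ofFinrankEq _ _ h1).map_eq_zero_iff.1 k2
    exact congrArg Subtype.val ((DFunLike.congr_fun hψ ⟨v, h2⟩).symm.trans k3)

end BfH

open BfH in
theorem bf_of (hD : DGL) (hK : KC) (hJ : JAC) (hV : TRV) : BF := by
  intro T hT n ρ X F l hX hB hQ J q Y π h
  classical
  have := hX.1
  have hw : T.Kc X (-T.c1 X (Bd.can n X.X)) :=
    c1_inv hT (V := X) isLB_can ▸ hT.c1.pos X _ (lb_inv isLB_can) hX.2
  have dw := hT.po.deg hw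
  have dY : T.Dg Y 1 (-T.c1 Y (Bd.can q Y.X)) := by rw [CT.Dg, map_neg, hT.c1.deg]
  refine ⟨Function.Surjective.connectedSpace (fun y => (h.conn y).nonempty) h.sub.hol.cont,
    hT.kp Y _ (lb_inv isLB_can) ?_⟩
  rw [c1_inv hT isLB_can]
  refine (hK T hT F l this ((hT.po.kah X).2 ⟨_, hw⟩) hB hQ).2 J Y π h _ dY fun i hi => ?_
  obtain ⟨q', Y', π', h'⟩ := hQ Jᶜ
  obtain ⟨a, da, ha⟩ := hB.onto fun j => if j ∈ J then 0 else l j (-T.c1 X (Bd.can n X.X))
  have da' : T.Dg X 1 (-T.c1 X (Bd.can n X.X) - a) := by rw [CT.Dg, map_sub, dw, da]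
  obtain ⟨b, db, hb⟩ := down hT h.sub.hol da (h.s4 a fun j hj => by
    rw [hB.deg j a da, ha, if_pos hj, map_zero])
  obtain ⟨b', db', hb'⟩ := down hT h'.sub.hol da' (h'.s4 _ fun j hj => by
    rw [hB.deg j _ da', map_sub, ha, if_neg hj, sub_self, map_zero])
  obtain ⟨x, hx⟩ := hV T hT h.sub.hol h'.sub.hol b b' inferInstance db db' (by
    rw [hb, hb', add_sub_cancel]; exact hw)
  obtain ⟨u, rfl⟩ := ((F i).ce x).nonempty
  obtain ⟨-, -, k1, -, k2⟩ := (hD T hT (F i)).2 (l i) (hB.deg i)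
  obtain ⟨P, j, hj, cP, -, hr, hint⟩ := k2 ((F i).p u)
  obtain ⟨g, -, hg⟩ := h'.fac i hi
  obtain ⟨d, hd⟩ := Nat.exists_eq_add_of_le (h.sub.sbm ((F i).e u)).le
  obtain ⟨t, t1, t2⟩ := coord h.sub h'.sub.hol hd.symm _ hx
  obtain ⟨s, hs, hz⟩ := hJ X Y P π j t h.sub.hol hj (fun z => t1 _ (by
    obtain ⟨u', e1, e2⟩ := hr.le (mem_range_self z)
    rw [← e2, hg, hg, show (F i).p u' = (F i).p u from e1])) hd.symm
  obtain ⟨z, hz0⟩ := hr.ge ⟨u, rfl, rfl⟩
  have lb : ∀ c : Fin 2, IsLB n (![Bd.can n X.X, pull π (Bd.can q Y.X)] c) :=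
    Fin.forall_fin_two.2 ⟨isLB_can, h.sub.hol.lb isLB_can⟩
  have lb' := hj.lb (lb_lin lb ![1, -1])
  have k3 := (hT.eff P _ s 0 Fin.elim0 rfl lb' hs
    (dense lb' hs ((hz z).2 (hz0 ▸ t2))) fun k => k.elim0).1
  rw [Finset.univ_eq_empty, Finset.prod_empty, mul_one, hT.c1.pull hj _ (lb_lin lb _),
    hint _ (hT.c1.deg _ _), hT.c1.lin X _ _ lb, Fin.sum_univ_two] at k3
  obtain ⟨η, hη⟩ := hB.pol i
  have k4 := k1 η _ hη hw
  have k5 := hT.c1.pull h.sub.hol (Bd.can q Y.X) isLB_can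
  simp only [Matrix.cons_val_zero, Matrix.cons_val_one, Int.cast_one, Int.cast_neg, one_smul,
    neg_smul, k5, map_add, map_neg] at k3 k4 ⊢
  linarith

end Vale.Agent.P280Z.Sq
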