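import Vale.Agent.P280Z.Sq.Sk
import Vale.Agent.P280Z.Ma.All

/-!
# P280Z, block Sq: the degree on the curves of a family
-/

open scoped Manifold ContDiff Topology Matrix
open Set Filter Module
open Vale.Agent.P272.K Vale.Agent.P285.H281.FD Vale.Agent.P281Z
open Vale.Agent.P277Z.Slc (at_chartAt)

noncomputable section

namespace Vale.Agent.P280Z.Sq

namespace DglH

/-- a holomorphic map with zero differential on a connected manifold is constant -/
theorem const_of {l q : ℕ} {Z : Mf l} {Y : Mf q} [PreconnectedSpace Z.X] {f : Z.X → Y.X}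
    (hf : HolM l q f) (h : ∀ z, Df l q f z = 0) (z z' : Z.X) : f z = f z' := by
  refine ((IsLocallyConstant.iff_eventually_eq f).2 fun x => ?_).apply_eq_of_preconnectedSpace z z'
  have he := at_chartAt (n := l) x
  have he' := at_chartAt (n := q) (f x)
  set e := chartAt (Cm l) x
  set e' := chartAt (Cm q) (f x)
  have h1 : ∀ᶠ y in 𝓝 x, df f e e' y = 0 := by
    filter_upwards [at_near he, hf.cont.continuousAt.eventually (at_near he')] with y k1 k2
    have h0 : df f (chartAt (Cm l) y) (chartAt (Cm q) (f y)) y = 0 :=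
      ContinuousLinearMap.ext fun v => LinearMap.congr_fun (h y) v
    rw [df_chart (hf.at y) (at_chartAt y) k1 (at_chartAt _) k2, h0]
    simp
  have h2 : ∀ᶠ w in 𝓝 (e x), fderiv ℂ (fun z => e' (f (e.symm z))) w = 0 := by
    filter_upwards [at_ev he h1, P277Z.At.right he] with w k1 k2
    have k3 : e (e.symm w) = w := k2
    unfold df at k1
    rwa [k3] at k1
  obtain ⟨r, hr, hb⟩ := Metric.eventually_nhds_iff_ball.1
    (h2.and ((hf.at x).an he he').eventually_analyticAt)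
  have h3 : ∀ᶠ w in 𝓝 (e x), e' (f (e.symm w)) = e' (f (e.symm (e x))) := by
    filter_upwards [Metric.ball_mem_nhds (e x) hr] with w hw
    exact Metric.isOpen_ball.is_const_of_fderiv_eq_zero (𝕜 := ℂ) (convex_ball _ _).isPreconnected
      (fun u hu => (hb u hu).2.differentiableAt.differentiableWithinAt) (fun u hu => (hb u hu).1)
      hw (Metric.mem_ball_self hr)
  filter_upwards [(e.continuousAt he.2).eventually h3, at_near he,
    hf.cont.continuousAt.eventually (at_near he')] with y k1 k2 k3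
  rw [k2.left_inv, he.left_inv] at k1
  exact e'.injOn k3.2 he'.2 k1

variable {T : CT} {n : ℕ} {X : Mf n}

theorem cst (hT : T.OK) (F : Pf X) {b : T.H F.U} (hb : T.Dg F.U 1 b) :
    ∃ c : ℝ, T.push F.p b = algebraMap ℝ _ c := by
  have := F.cU
  have : PreconnectedSpace F.K.X := ⟨by
    rw [← range_eq_univ.2 fun l => (F.cp l).nonempty]
    exact isPreconnected_range F.sp.hol.cont⟩
  refine hT.rg.h0 _ this _ ?_
  unfold CT.Dg
  rw [hT.pu.deg F.sp 1 rfl, hb]

/-- the curve over `y` -/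
theorem crv (hT : T.OK) (F : Pf X) (y : F.K.X) :
    ∃ (P : Mf 1) (j : P.X → F.U.X) (h : Emb 1 (F.k + 1) j (F.p ⁻¹' {y})),
      ConnectedSpace P.X ∧ P.Kah ∧
      ∀ a c, T.push F.p a = algebraMap ℝ _ c → T.int P (T.pull h.hol a) = c := by
  obtain ⟨P, j, h, hj⟩ := Ma.fibre hT fp F.sp rfl y
  obtain ⟨w, hw⟩ := (hT.po.kah _).1 F.kU
  refine ⟨P, j, h, ?_, (hT.po.kah _).2 ⟨_, Ma.kc_pull hT h.hol (fun z v hv =>
    h.imm z _ _ (at_chartAt z) (at_chartAt _) (hv.trans (map_zero _).symm)) hw⟩, hj⟩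
  have k := (h.hol.cont.isClosedEmbedding h.inj).isInducing.isPreconnected_image (s := univ)
  rw [image_univ, h.rng] at k
  obtain ⟨u, hu⟩ := (F.cp y).nonempty
  obtain ⟨z, -⟩ : u ∈ range j := h.rng.symm ▸ hu
  exact connectedSpace_iff_univ.2 ⟨⟨z, trivial⟩, k.1 (F.cp y).2⟩

theorem tau (hT : T.OK) (F : Pf X) : T.push F.p (T.c1 F.U F.Tb) = algebraMap ℝ _ 2 := by
  obtain ⟨c, hc⟩ := cst hT F (hT.c1.deg _ F.Tb)
  obtain ⟨w, hw⟩ := (hT.po.kah _).1 F.kU
  have h1 : T.pull F.Q.cart.hg (T.push F.p (T.c1 F.U F.Tb)) = 2 := (Ma.lha T hT F.Q F.kU).2.1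
  have h2 := Ma.kc_vol hT hw F.cU.toNonempty.some
  rw [hc, AlgHom.commutes] at h1
  have h3 : c • w ^ (F.k + 1) = (2 : ℝ) • w ^ (F.k + 1) := by
    rw [Algebra.smul_def, h1, two_smul, two_mul]
  have h4 := congrArg (T.int F.U) h3
  rw [map_smul, map_smul, smul_eq_mul, smul_eq_mul] at h4
  rw [hc, mul_right_cancel₀ h2.ne' h4]

end DglH

open DglH in
theorem dgl : DGL := by
  intro T hT n X F
  obtain ⟨u0⟩ := F.cU.toNonempty
  have pc : ∀ {P : Mf 1} {j : P.X → F.U.X} (h : HolM 1 (F.k + 1) j) a,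
      T.pull (F.se.hol.comp h) a = T.pull h (T.pull F.se.hol a) := fun h a =>
    hT.rg.pull_comp h F.se.hol _ (fun _ => rfl) a
  refine ⟨?_, fun l hl => ?_⟩
  · obtain ⟨P, j, h, -, -, hj⟩ := crv hT F (F.p u0)
    refine ⟨(T.int P).comp (T.pull (F.se.hol.comp h.hol)).toLinearMap, fun a ha => ?_⟩
    obtain ⟨c, hc⟩ := cst hT F (Ma.dg_pull hT F.se.hol ha)
    change _ = algebraMap ℝ _ (T.int P (T.pull (F.se.hol.comp h.hol) a))
    rw [pc h.hol, hj _ _ hc]
    exact hc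
  have nn : ∀ a, T.Nn X a → 0 ≤ l a := fun a ha => by
    obtain ⟨P, j, h, -, -, hj⟩ := crv hT F (F.p u0)
    rw [← hj _ _ (hl a (hT.po.deg ha)), ← mul_one (T.pull h.hol _)]
    exact hT.po.wp_int (hT.po.wp_mul (Ma.nn_pull hT _ (Ma.nn_pull hT _ ha)) (hT.po.wp_one _))
  have one : ∀ η, F.Pol T η → l η = 1 := fun η hη => by
    obtain ⟨P, j, h, -, -, hj⟩ := crv hT F (F.p u0)
    obtain ⟨lam, c, -, h1, -⟩ := hη.ex
    have h2 := hj _ _ (tau hT F)
    have h3 := hj (T.pull F.sp.hol lam) 0 (by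
      rw [← one_mul (T.pull F.sp.hol lam), hT.pu.proj F.sp, Ma.push_one hT F.sp, zero_mul, map_zero])
    have h4 := hj _ _ (hl η (hT.po.deg hη.kc))
    rw [h1, map_sub, map_smul, map_sub, map_smul, h3, h4, smul_eq_mul] at h2
    linarith
  refine ⟨nn, one, fun η a hη ha => ?_, fun {q} Y π hπ w hw ⟨u, v, huv, hne⟩ => ?_, fun y => ?_⟩
  · have h1 : η ∈ T.Ty X := by
      rw [← mul_one η]
      exact hT.tp.wp (hT.po.wp_mul (hT.po.mono hη.kc fun _ => le_top) (hT.po.wp_one _))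
    have h2 : T.Dg X 1 (-η) := by
      unfold CT.Dg; rw [map_neg, hT.po.deg hη.kc]
    obtain ⟨c, hc, h3⟩ := hT.po.opn ha (-η) (neg_mem h1) h2
    have h4 := nn _ (hT.po.mono h3 fun _ => le_top)
    rw [map_add, map_smul, map_neg, one η hη, smul_eq_mul] at h4
    exact (mul_pos_iff_of_pos_left hc).1 (by linarith)
  · obtain ⟨P, j, h, hc, -, hj⟩ := crv hT F (F.p u)
    obtain ⟨z, rfl⟩ : u ∈ range j := h.rng.symm ▸ rfl
    obtain ⟨z', rfl⟩ : v ∈ range j := h.rng.symm ▸ huv.symm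
    have hf := hπ.comp (F.se.hol.comp h.hol)
    obtain ⟨x, hx⟩ : ∃ x, Df 1 q (fun z => π (F.e (j z))) x ≠ 0 := by
      by_contra k
      push Not at k
      exact hne (const_of hf k z z')
    have hb : (⊥ : Submodule ℂ (Cm q)).comap (Df 1 q (fun z => π (F.e (j z))) x) = ⊥ := by
      refine ((isSimpleModule_iff_finrank_eq_one (R := ℂ) (M := Cm 1)).2 (by simp)).eq_bot_or_eq_top
        _ |>.resolve_right fun k => hx ?_
      exact LinearMap.ker_eq_top.1 k
    have h1 := hT.po.pull hf hw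
    have h2 := hT.po.pos 1 0 x h1 h1 rfl hb (by rw [hb]; simp)
    rw [pow_zero, mul_one, pow_one, hT.rg.pull_comp (F.se.hol.comp h.hol) hπ hf (fun _ => rfl),
      pc h.hol, hj _ _ (hl _ (Ma.dg_pull hT hπ (hT.po.deg hw)))] at h2
    exact h2
  · obtain ⟨P, j, h, hc, hk, hj⟩ := crv hT F y
    refine ⟨P, fun z => F.e (j z), F.se.hol.comp h.hol, hc, hk, ?_, fun a ha => ?_⟩
    · rw [← h.rng, ← range_comp]; rfl
    · rw [pc h.hol, hj _ _ (hl a ha)]

end Vale.Agent.P280Z.Sq
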