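import Vale.Agent.P280Z.Sq.Sk
import Vale.Agent.P280Z.Ma.Nsx
import Vale.Agent.P281Z.Mf.Loc

/-!
# P280Z, block Sq: the cone of the Kähler classes
-/

open scoped Manifold ContDiff Topology Matrix
open Set Filter
open Vale.Agent.P272.K Vale.Agent.P285.H281.FD Vale.Agent.P281Z
open Vale.Agent.P280Z.Ma (dg_pull nn_pull kc_add kc_vol)

noncomputable section

namespace Vale.Agent.P280Z.Sq

namespace KcH

variable {T : CT} {n ρ q : ℕ} {X : Mf n} {Y : Mf q}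

theorem kill (hT : T.OK) {F : Pf X} {l : T.H X →ₗ[ℝ] ℝ} (hl : F.Deg T l) {a : T.H X}
    (ha : T.Dg X 1 a) (h : F.ph T a = 0) : l a = 0 := by
  obtain ⟨w, hw⟩ := (hT.po.kah _).1 F.kK
  obtain ⟨u⟩ := F.cU.toNonempty
  have h1 := kc_vol hT hw (F.p u)
  have h2 : l a • w ^ F.k = 0 := by rw [Algebra.smul_def, ← hl a ha, h, zero_mul]
  have h3 := congrArg (T.int F.K) h2
  rw [map_smul, map_zero, smul_eq_mul] at h3
  exact (mul_eq_zero.1 h3).resolve_right h1.ne'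

variable {F : Fin ρ → Pf X} {l : Fin ρ → T.H X →ₗ[ℝ] ℝ}

theorem ch_mono {J J' : Set (Fin ρ)} (h : J ⊆ J') {x y : X.X} (k : Ch F J x y) : Ch F J' x y :=
  Relation.EqvGen.mono (r := fun x y => ∃ j ∈ J, (F j).Lk x y)
    (fun _ _ k => k.imp fun _ k => ⟨h k.1, k.2⟩) x y k

theorem surj {J : Set (Fin ρ)} {π : X.X → Y.X} (h : Qt T F J Y π) : Function.Surjective π :=
  fun y => (h.conn y).nonempty

theorem pinj (hI : INJ) (hT : T.OK) (hc : ConnectedSpace X.X) (hk : X.Kah) {J : Set (Fin ρ)}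
    {π : X.X → Y.X} (h : Qt T F J Y π) (u : T.H Y) (e : T.pull h.sub.hol u = 0) : u = 0 :=
  hI T hT h.sub.hol hk h.kah ((surj h).connectedSpace h.sub.hol.cont)
    (hc.toNonempty.elim fun x => ⟨x, h.sub.sbm x⟩) u e

theorem off (hT : T.OK) (hB : Bas T F l) {J : Set (Fin ρ)} {π : X.X → Y.X} (h : Qt T F J Y π)
    {b : T.H Y} (hb : T.Dg Y 1 b) {j : Fin ρ} (hj : j ∈ J) : l j (T.pull h.sub.hol b) = 0 :=
  kill hT (hB.deg j) (dg_pull hT _ hb) (h.ph j hj b)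

/-- the generators of the cone -/
theorem gen (hI : INJ) (hD : DGL) (hT : T.OK) (hc : ConnectedSpace X.X) (hk : X.Kah)
    (hB : Bas T F l) {j : Fin ρ} {π : X.X → Y.X} (h : Qt T F {j}ᶜ Y π) {H : T.H Y}
    (hH : T.Kc Y H) : 0 < l j (T.pull h.sub.hol H) := by
  classical
  refine (((hD T hT (F j)).2 _ (hB.deg j)).1 _ (nn_pull hT _ hH)).lt_of_ne' fun e => ?_
  have h1 := hT.po.deg hH
  have h2 : H = 0 := pinj hI hT hc hk h H (hB.inj _ (dg_pull hT _ h1) fun i => by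
    by_cases hi : i = j
    · rw [hi, e]
    · exact off hT hB h h1 hi)
  obtain ⟨x⟩ := hc.toNonempty
  have h3 := kc_vol hT hH (π x)
  have h4 : q = 0 := by
    by_contra hq
    rw [h2, zero_pow hq, map_zero] at h3
    exact lt_irrefl _ h3
  obtain ⟨a, ha, h5⟩ := hB.onto (Pi.single j 1)
  obtain ⟨b, hb⟩ := h.s4 a fun i hi => by
    rw [hB.deg i a ha, h5, Pi.single_eq_of_ne hi, map_zero]
  have h6 : a = 0 := by
    rw [← ha, hb, ← hT.rg.pull_pr, hT.rg.pr_zero Y 1 b (by omega), map_zero]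
  have h7 := h5 j
  rw [h6, map_zero, Pi.single_eq_same] at h7
  exact zero_ne_one h7

theorem nn_smul (hT : T.OK) {a : T.H Y} (ha : T.Nn Y a) {c : ℝ} (hc : 0 ≤ c) : T.Nn Y (c • a) := by
  rcases hc.eq_or_lt with e | e
  · rw [← e, zero_smul]
    exact hT.po.zero Y
  · exact hT.po.smul c e ha

theorem small (s : Finset (Fin ρ)) (u v : Fin ρ → ℝ) (h : ∀ j ∈ s, 0 < v j) :
    ∃ ε : ℝ, 0 < ε ∧ ∀ j ∈ s, ε * u j ≤ v j := by
  have h1 : ∀ᶠ ε : ℝ in 𝓝[>] 0, ∀ j ∈ s, ε * u j < v j :=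
    (eventually_all_finset s).2 fun j hj => mem_nhdsWithin_of_mem_nhds
      ((continuous_id.mul continuous_const).continuousAt.eventually_lt continuousAt_const
        (by simpa using h j hj))
  obtain ⟨ε, h2, h3⟩ := (h1.and self_mem_nhdsWithin).exists
  exact ⟨ε, h3, fun j hj => (h2 j hj).le⟩

/-- the main step -/
theorem main (hT : T.OK) (hB : Bas T F l) {π : X.X → Y.X} (hπ : HolM n q π) (hk : Y.Kah)
    (hi : ∀ u, T.pull hπ u = 0 → u = 0) (S : Set (Fin ρ))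
    (h0 : ∀ j ∉ S, ∀ b, T.Dg Y 1 b → l j (T.pull hπ b) = 0)
    (hN : ∀ j ∈ S, ∃ N, T.Nn Y N ∧ (∀ i, i ≠ j → l i (T.pull hπ N) = 0) ∧ 0 < l j (T.pull hπ N))
    {b : T.H Y} (hb : T.Dg Y 1 b) (h : ∀ j ∈ S, 0 < l j (T.pull hπ b)) : T.Kc Y b := by
  classical
  choose! N h1 h2 h3 using hN
  obtain ⟨w, hw⟩ := (hT.po.kah _).1 hk
  obtain ⟨s, hs⟩ : ∃ s : Finset (Fin ρ), ∀ j, j ∈ s ↔ j ∈ S :=
    ⟨Finset.univ.filter (· ∈ S), fun j => Finset.mem_filter_univ j⟩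
  obtain ⟨ε, e0, he⟩ := small s (fun j => l j (T.pull hπ w)) (fun j => l j (T.pull hπ b))
    fun j hj => h j ((hs j).1 hj)
  obtain ⟨c, hc⟩ : ∃ c : Fin ρ → ℝ,
      ∀ j, c j = (l j (T.pull hπ b) - ε * l j (T.pull hπ w)) / l j (T.pull hπ (N j)) :=
    ⟨_, fun _ => rfl⟩
  have k1 : T.Nn Y (∑ j ∈ s, c j • N j) :=
    Finset.sum_induction _ _ (fun a a' k k' => hT.po.mono (hT.po.add k k') fun _ => le_top)
      (hT.po.zero Y) fun j hj => nn_smul hT (h1 j ((hs j).1 hj)) (by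
        rw [hc]
        exact div_nonneg (sub_nonneg.2 (he j hj)) (h3 j ((hs j).1 hj)).le)
  have k2 : T.Kc Y (ε • w + ∑ j ∈ s, c j • N j) := kc_add hT (hT.po.smul ε e0 hw) k1
  have k3 : T.Dg Y 1 (b - (ε • w + ∑ j ∈ s, c j • N j)) := by
    unfold CT.Dg
    rw [map_sub, hb, hT.po.deg k2]
  have k4 : b - (ε • w + ∑ j ∈ s, c j • N j) = 0 := by
    refine hi _ (hB.inj _ (dg_pull hT _ k3) fun i => ?_)
    by_cases hi : i ∈ S
    · simp only [map_sub, map_add, map_smul, map_sum, smul_eq_mul]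
      rw [Finset.sum_eq_single i (fun j hj e => by rw [h2 j ((hs j).1 hj) i e.symm, mul_zero])
        (fun e => absurd ((hs i).2 hi) e), hc, div_mul_cancel₀ _ (h3 i hi).ne']
      ring
    · exact h0 i hi _ k3
  rwa [sub_eq_zero.1 k4]

end KcH

open KcH in
theorem kc_of : INJ → DGL → KC := by
  intro hI hD T hT n ρ X F l hc hk hB hQ
  have hG : ∀ j, ∃ (m : ℕ) (M : Mf m) (μ : X.X → M.X) (h : Qt T F {j}ᶜ M μ) (H : T.H M),
      T.Kc M H ∧ (∀ i, i ≠ j → l i (T.pull h.sub.hol H) = 0) ∧ 0 < l j (T.pull h.sub.hol H) :=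
    fun j => by
      obtain ⟨m, M, μ, h⟩ := hQ {j}ᶜ
      obtain ⟨H, hH⟩ := (hT.po.kah _).1 h.kah
      exact ⟨m, M, μ, h, H, hH, fun i hi => off hT hB h (hT.po.deg hH) hi,
        gen hI hD hT hc hk hB h hH⟩
  refine ⟨fun a ha h => main hT hB holM_id hk (fun u e => by rwa [hT.rg.pull_id] at e) univ
    (fun j hj => absurd (mem_univ j) hj) (fun j _ => ?_) ha fun j _ => ?_,
    fun J q Y π h b hb hp => main hT hB h.sub.hol h.kah (pinj hI hT hc hk h) Jᶜ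
      (fun j hj b hb => off hT hB h hb (not_not.1 hj)) (fun j hj => ?_) hb hp⟩
  · obtain ⟨m, M, μ, h, H, h1, h2⟩ := hG j
    refine ⟨T.pull h.sub.hol H, nn_pull hT _ h1, ?_⟩
    rwa [hT.rg.pull_id]
  · rw [hT.rg.pull_id]
    exact h j
  · obtain ⟨m, M, μ, h', H, h1, h2⟩ := hG j
    have e : ∀ x, μ x = μ (Function.surjInv (surj h) (π x)) := fun x =>
      (h'.rel _ _).2 (ch_mono (fun i k (e : i = j) => hj (e ▸ k))
        ((h.rel _ _).1 (Function.surjInv_eq (surj h) (π x)).symm))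
    have hν : HolM q m fun y => μ (Function.surjInv (surj h) y) := fun y => by
      obtain ⟨x, rfl⟩ := surj h y
      refine (h.sub.sbm x).desc (g := fun y => μ (Function.surjInv (surj h) y))
        (h.sub.hol.at x) ?_
      rw [← funext e]
      exact h'.sub.hol.at x
    refine ⟨T.pull hν H, nn_pull hT _ h1, ?_⟩
    rwa [← hT.rg.pull_comp h.sub.hol hν h'.sub.hol e]

end Vale.Agent.P280Z.Sq
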