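import Vale.Agent.P280Z.Sq.Sk
import Vale.Agent.P280Z.Co.Fp
import Vale.Agent.P280Z.Ma.Rel
import Vale.Agent.P281Z.Mf.Fib
import Vale.Agent.P281Z.Mf.Sub

/-!
# P280Z, block Sq, row RES: the restriction of a family to a fibre
-/

open scoped Manifold ContDiff Topology Matrix
open Set Filter Function
open Vale.Agent.P272.K Vale.Agent.P285.H281.FD Vale.Agent.P281Z
open Vale.Agent.P277Z (Hol at_chart)
open Vale.Agent.P277Z.Slc (lin dd)
open Vale.Agent.P277.HD (pull)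

noncomputable section

namespace Vale.Agent.P280Z.Sq

namespace ResH

section one
variable {n m l : ℕ} {V : Mf n} {W : Mf m} {Z : Mf l}

theorem Dc {f : V.X → W.X} {g : W.X → Z.X} {k : V.X → Z.X} (hg : HolM m l g) (hf : HolM n m f)
    (h : ∀ x, k x = g (f x)) (x : V.X) (v : Cm n) :
    Df n l k x v = Df m l g (f x) (Df n m f x v) := by
  obtain rfl : k = fun x => g (f x) := funext h
  exact DFunLike.congr_fun
    (df_comp (hg.at _) (hf.at x) (at_chart x) (at_chart _) (at_chart _)) v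

theorem Di (x : V.X) (v : Cm n) : Df n n (fun y : V.X => y) x v = v :=
  DFunLike.congr_fun (df_id_self (at_chart x)) v

theorem imm0 {f : V.X → W.X} {S : Set W.X} (h : Emb n m f S) (x : V.X) (v : Cm n)
    (hv : Df n m f x v = 0) : v = 0 :=
  (injective_iff_map_eq_zero _).1 (h.imm x _ _ (at_chart x) (at_chart _)) v hv

theorem rk {f : V.X → W.X} (h : Sub n m f) (x : V.X) :
    m + Module.finrank ℂ (LinearMap.ker (Df n m f x)) = n := by
  have h1 := (Df n m f x).finrank_range_add_finrank_ker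
  rwa [(LinearMap.range_eq_top (f := Df n m f x)).2 (h.sbm x _ _ (at_chart x) (at_chart _)),
    finrank_top, Module.finrank_fin_fun, Module.finrank_fin_fun] at h1

theorem trv {α : Type} [Fintype α] {L : α → Bd W.X} {L' : α → Bd V.X} {f : V.X → W.X}
    (hf : HolM n m f) (h : ∀ a, L' a = pull f (L a)) {k : α → ℤ} (t : Trv m (lin L k)) :
    Trv n (lin L' k) := by
  obtain rfl : L' = fun a => pull f (L a) := funext h
  obtain ⟨s, h1, h2⟩ := t
  exact ⟨fun a x => s a (f x), hf.sec h1, fun x => h2 (f x)⟩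

theorem conn {f : V.X → W.X} (hf : Continuous f) (h : ∀ y, IsConnected (f ⁻¹' {y}))
    (hW : ConnectedSpace W.X) : ConnectedSpace V.X := by
  have hs : Surjective f := fun y => (h y).1
  obtain ⟨y⟩ : Nonempty W.X := inferInstance
  obtain ⟨x, -⟩ := hs y
  refine connectedSpace_iff_connectedComponent.2 ⟨x, ?_⟩
  rw [← (hf.isClosedMap.isQuotientMap hf hs).preimage_connectedComponent h x,
    PreconnectedSpace.connectedComponent_eq_univ, preimage_univ]

theorem kc {T : CT} (hT : T.OK) {f : V.X → W.X} {S : Set W.X} (h : Emb n m f S) {w : T.H W}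
    (hw : T.Kc W w) : T.Kc V (T.pull h.hol w) :=
  hT.po.mono (hT.po.pull h.hol hw) fun z v hv => imm0 h z v hv

end one

section cart
variable {n m n' m' : ℕ} {V : Mf n} {W : Mf m} {V' : Mf n'} {W' : Mf m'}
  {f : V.X → W.X} {g : W'.X → W.X} {f' : V'.X → W'.X} {g' : V'.X → V.X} {S : Set W.X}

theorem Dsq (h : Cart f g f' g') (z : V'.X) (v : Cm n') :
    Df n m f (g' z) (Df n' n g' z v) = Df m' m g (f' z) (Df n' m' f' z v) :=
  (Dc h.sf.hol h.hg' (fun _ => rfl) z v).symm.trans (Dc h.hg h.sf'.hol h.comm z v)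

/-- the base change of an embedding -/
theorem emb (h : Cart f g f' g') (hg : Emb m' m g S) : Emb n' n g' (f ⁻¹' S) := by
  refine ⟨h.hg', fun z z' k => ?_, fun z => ?_, Set.ext fun x => ⟨?_, fun hx => ?_⟩⟩
  · exact (h.uniq _ _ (h.comm z).symm).unique ⟨rfl, rfl⟩
      ⟨hg.inj (by rw [← h.comm, ← h.comm, k]), k.symm⟩
  · refine .of_chart (h.hg'.at z) (at_chart z) (at_chart _)
      ((injective_iff_map_eq_zero _).2 fun v hv => h.imm z v (imm0 hg (f' z) _ ?_) hv)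
    rw [← Dsq h, show Df n' n g' z v = 0 from hv, map_zero]
  · rintro ⟨z, rfl⟩
    exact mem_preimage.2 (h.comm z ▸ hg.mem _)
  · obtain ⟨y, hy⟩ := hg.ex hx
    obtain ⟨z, hz, -⟩ := h.uniq y x hy
    exact ⟨z, hz.2⟩

/-- the restriction of a submersion -/
theorem res (hf : Sub n m f) (hg : Emb m' m g S) (hg' : Emb n' n g' (f ⁻¹' S))
    (hd : n' + m = n + m') : ∃ f', Cart f g f' g' := by
  obtain ⟨V₁, f₁, g₁, h, -⟩ := fp n' f g hd hf hg.hol
  obtain ⟨φ, h1, h2⟩ := (emb h hg).fac hg' subset_rfl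
  have h3 : ∀ z, f (g' z) = g (f₁ (φ z)) := fun z => by rw [← h2, h.comm]
  refine ⟨fun z => f₁ (φ z), hd, hf, ⟨h.sf'.hol.comp h1.hol, fun z => ?_⟩, hg.hol, hg'.hol, h3,
    fun y x k => ?_, fun z v _ k => imm0 hg' z v k⟩
  · exact .comp (h.sf'.hol.at _) (h1.hol.at z) (h.sf'.sbm _) (imm_iff_sbm.1 (h1.imm z))
  · obtain ⟨z, rfl⟩ := hg'.ex (y := x) (mem_preimage.2 (k ▸ hg.mem y))
    exact ⟨z, ⟨hg.inj ((h3 z).symm.trans k.symm), rfl⟩, fun _ k' => hg'.inj k'.2⟩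

theorem fib (h : Cart f g f' g') (hg : Emb m' m g S) (y : W'.X) (c : IsConnected (f ⁻¹' {g y})) :
    IsConnected (f' ⁻¹' {y}) := by
  have h1 : g' '' (f' ⁻¹' {y}) = f ⁻¹' {g y} := by
    refine Set.ext fun x => ⟨?_, fun hx => ?_⟩
    · rintro ⟨z, hz, rfl⟩
      exact (h.comm z).trans (congrArg g hz)
    · obtain ⟨z, hz, -⟩ := h.uniq y x (Eq.symm hx)
      exact ⟨z, hz⟩
  rwa [← h1, IsConnected, image_nonempty, (emb h hg).cemb.isInducing.isPreconnected_image] at c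

theorem sq {T : CT} (hT : T.OK) (h : Cart f g f' g') (a : T.H W) :
    T.pull h.hg' (T.pull h.sf.hol a) = T.pull h.sf'.hol (T.pull h.hg a) :=
  (hT.rg.pull_comp h.hg' h.sf.hol (h.sf.hol.comp h.hg') (fun _ => rfl) a).symm.trans
    (hT.rg.pull_comp h.sf'.hol h.hg _ h.comm a)

theorem dem {T : CT} (hT : T.OK) (h : Cart f g f' g') (a : T.H V) :
    T.dem h.sf'.hol (T.pull h.hg' a) = T.pull h.hg' (T.dem h.sf.hol a) := by
  change T.pull _ (T.push f' _) = T.pull _ (T.pull _ (T.push f a))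
  rw [sq hT h, hT.pu.bc h]

end cart

/-- the restriction of a bundle of projective lines -/
theorem p1d {u k k' : ℕ} {U : Mf u} {K : Mf k} {p : U.X → K.X} {Tb : Bd U.X} (Q : P1D p Tb)
    {U' : Mf (k' + 1)} {K' : Mf k'} {p' : U'.X → K'.X} {j : U'.X → U.X} {κ : K'.X → K.X}
    {S : Set K.X} (h : Cart p κ p' j) (hκ : Emb k' k κ S) : Nonempty (P1D p' (pull j Tb)) := by
  have hj := emb h hκ
  obtain ⟨U2, q1, μ, c1, -⟩ := fp (k' + 1 + 1) Q.q1 j (by omega) Q.cart.sf' hj.hol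
  have hμ := emb c1 hj
  have e12 : Q.q1 ⁻¹' (p ⁻¹' S) = Q.q2 ⁻¹' (p ⁻¹' S) :=
    Set.ext fun w => by simp only [mem_preimage, Q.cart.comm]
  obtain ⟨q2, c2⟩ := res Q.sub2 hj (e12 ▸ hμ) (by omega)
  have hd := Q.cut.emb
  obtain ⟨δ, d1, d2⟩ := hμ.fac (hd.comp hj) (by
    rintro _ ⟨x, hx, rfl⟩
    exact mem_preimage.2 ((Q.h1 x).symm ▸ hx))
  have a1 : ∀ x, q1 (δ x) = x := fun x => hj.inj (by rw [← c1.comm, d2, Q.h1])
  have a2 : ∀ x, q2 (δ x) = x := fun x => hj.inj (by rw [← c2.comm, d2, Q.h2])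
  have cc : Cart p' p' q1 q2 := by
    refine ⟨by omega, h.sf', c1.sf', h.sf'.hol, c2.sf'.hol, fun z => hκ.inj ?_, fun y x e => ?_,
      fun z v k1 k2 => imm0 hμ z v (Q.cart.imm (μ z) _ ?_ ?_)⟩
    · rw [← h.comm, ← h.comm, ← c1.comm, ← c2.comm, Q.cart.comm]
    · obtain ⟨w, hw, hu⟩ := Q.cart.uniq (j y) (j x) (by rw [h.comm, h.comm, e])
      obtain ⟨z, hz, -⟩ := c1.uniq y w hw.1.symm
      refine ⟨z, ⟨hz.1, hj.inj (by rw [← c2.comm, hz.2, hw.2])⟩, fun z' k => hμ.inj ?_⟩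
      rw [hz.2]
      exact hu _ ⟨by rw [c1.comm, k.1], by rw [c2.comm, k.2]⟩
    · rw [Dsq c1, k1, map_zero]
    · rw [Dsq c2, k2, map_zero]
  have ct : Cut (pull μ Q.D) (fun a w => Q.s a (μ w)) δ := by
    refine ⟨rfl, hμ.hol.lb Q.cut.lb, hμ.hol.sec Q.cut.sec, ?_, fun z a ha e he h0 => ?_⟩
    · have : μ ⁻¹' (Q.dg '' (p ⁻¹' S)) = {x | ¬ NZ (pull μ Q.D) (fun a w => Q.s a (μ w)) x} := by
        refine Set.ext fun w => ⟨?_, fun hw => ?_⟩
        · rintro ⟨x, -, hx⟩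
          exact show μ w ∈ {x | ¬ NZ Q.D Q.s x} from hx ▸ hd.mem x
        · obtain ⟨x, hx⟩ := hd.ex (y := μ w) hw
          refine ⟨x, ?_, hx⟩
          rw [← Q.h1 x, hx]
          exact hμ.mem w
      exact this ▸ d1
    · have ha' : Q.dg (j z) ∈ Q.D.U a := d2 z ▸ ha
      have hs : Hol (u + 1) (Q.s a) (μ (δ z)) := Ma.RelH.s_hol Q.cut ha
      have h1 := P277Z.Slc.dd_chart (hμ.hol.hol hs) he (at_chart (δ z))
      rw [h0, ContinuousLinearMap.zero_comp,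
        dd_comp hs (hμ.hol.at _) (at_chart _) (at_chart _)] at h1
      have h2 := rk c1.sf' (δ z)
      obtain ⟨⟨v, hv⟩, hv0⟩ := (Module.finrank_pos_iff_exists_ne_zero (R := ℂ)
        (M := LinearMap.ker (Df (k' + 1 + 1) (k' + 1) q1 (δ z)))).1 (by omega)
      have h3 : dd (Q.s a) (chartAt _ (μ (δ z))) (μ (δ z)) (Df _ (u + 1) μ (δ z) v) = 0 :=
        DFunLike.congr_fun h1 v
      have h4 := Dsq c1 (δ z) v
      rw [show Df _ _ q1 (δ z) v = 0 from hv, map_zero] at h4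
      have h5 := imm0 hμ (δ z) v
      generalize Df _ (u + 1) μ (δ z) v = w at h3 h4 h5
      rw [d2] at h3 h4
      obtain ⟨t, rfl⟩ := (Ma.RelH.ds_ex Q.cut (j z) w).1 (funext fun _ =>
        (DFunLike.congr_fun (Ma.RelH.dd_change Q.cut (Q.cut.lb.cover _).choose_spec ha'
          (at_chart _)) w).trans ((congrArg (_ * ·) h3).trans (mul_zero _)))
      rw [← Dc Q.cart.sf'.hol hd.hol (fun x => (Q.h1 x).symm), Di] at h4
      exact hv0 (Subtype.ext (h5 (by rw [h4, map_zero])))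
  refine ⟨⟨U2, q1, q2, δ, _, _, rfl, hj.hol.lb Q.lb, cc, c2.sf', ct, a1, a2,
    trv hμ.hol (fun a => ?_) Q.tv1, trv hj.hol (fun a => ?_) Q.tv2⟩⟩
  · fin_cases a
    · rfl
    · exact congrArg (pull · Tb) (funext fun z => (c1.comm z).symm)
    · exact congrArg (pull · Tb) (funext fun z => (c2.comm z).symm)
  · fin_cases a
    · exact congrArg (pull · Q.D) (funext d2)
    · rfl

end ResH

open ResH in
/-- **row RES** -/
theorem res : RES := by
  intro T hT n q d X Y Z F π g y i hi hn hπ hg hc hZ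
  obtain ⟨u₀⟩ : Nonempty F.U.X := F.cU.toNonempty
  obtain ⟨k', hk⟩ := Nat.exists_eq_add_of_le (hg.sbm (F.p u₀)).le
  obtain ⟨K', κ, hκ⟩ := fib_emb (y := y) hk hg.hol fun x _ => hg.sbm x
  obtain ⟨U', p', j, cp, -⟩ := fp (k' + 1) F.p κ (by omega) F.sp hκ.hol
  have hj := emb cp hκ
  have e1 : F.p ⁻¹' (g ⁻¹' {y}) = F.e ⁻¹' (π ⁻¹' {y}) :=
    Set.ext fun w => by simp only [mem_preimage, hc]
  obtain ⟨e', ce⟩ := ResH.res F.se hi (e1 ▸ hj) (by omega)
  obtain ⟨Q'⟩ := p1d F.Q cp hκ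
  have c2 : ∀ x, IsConnected (e' ⁻¹' {x}) := fun x => fib ce hi x (F.ce _)
  have hr := Ma.rel_of vbl
  refine ⟨⟨k', K', U', p', e', _, Q', cp.sf', ce.sf', hj.kah F.kU, hκ.kah F.kK,
    conn ce.sf'.hol.cont c2 hZ, fun l => fib cp hκ l (F.cp _), c2⟩, κ, j, ⟨cp, ce, rfl⟩,
    fun η hη => ?_, fun x x' ⟨a, b, h1, h2, h3⟩ => ?_⟩
  · have t1 := hT.c1.pull hj.hol _ F.Q.lb
    obtain ⟨lam, c, l1, l2, l3⟩ := hη.ex
    refine ⟨kc hT hi hη.kc, ⟨_, c, kc hT hκ l1, ?_, ?_⟩, fun m E' hE' l => ?_⟩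
    · refine t1.trans ?_
      rw [l2, map_sub, map_smul, sq hT ce, sq hT cp]
    · have := kc hT hj l3
      rwa [map_add, map_smul, sq hT cp, ← t1] at this
    · obtain ⟨z₀⟩ : Nonempty Z.X := inferInstance
      obtain ⟨w, -⟩ := (c2 z₀).1
      have r1 := rk ce.sf' w
      have r2 : Module.finrank ℂ (LinearMap.ker (Df (k' + 1) d e' w)) = m := by
        obtain ⟨ι, O, b, -, s⟩ := hE'
        exact Ma.RelH.rk s.v1 w
      obtain ⟨E, hE⟩ := hr.ex F.e m F.se (by omega)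
      have r3 := congrArg (T.pull cp.hg') (hη.inv m E hE l)
      rw [← dem hT cp, map_zero, map_sum] at r3
      refine Eq.trans (congrArg _ (Finset.sum_congr rfl fun a _ => ?_)) r3
      rw [map_smul, map_mul, map_pow, map_smul, ← hr.bc T hT ce hE hE', ← t1]
  · obtain ⟨z, hz, -⟩ := ce.uniq x a h2.symm
    obtain ⟨z', hz', -⟩ := ce.uniq x' b h3.symm
    exact ⟨z, z', hκ.inj (by rw [← cp.comm, ← cp.comm, hz.2, hz'.2, h1]), hz.1, hz'.1⟩

end Vale.Agent.P280Z.Sq
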