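import Vale.Agent.P280Z.Sq.Api
import Vale.Agent.P280Z.Ma.Nsx

/-!
# P280Z, block Sq: the system of families
-/

open scoped Manifold ContDiff Topology
open Set Filter Function Module
open Vale.Agent.P272.K Vale.Agent.P285.H281.FD Vale.Agent.P281Z
open Vale.Agent.P280Z.Mp (Fam)
open Vale.Agent.P280Z.Gm (HRR)

noncomputable section

namespace Vale.Agent.P280Z.Sq

/-- the fibres of the quotients -/
def FIBX : Prop := ∀ {T : CT}, T.OK → HRR T → ∀ {n ρ : ℕ} {X : Mf n} {F : Fin ρ → Pf X}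
  {l : Fin ρ → T.H X →ₗ[ℝ] ℝ}, Fano n X.X → Bas T F l → ∀ (J : Set (Fin ρ)) {q d : ℕ} (Y : Mf q)
  (π : X.X → Y.X), Qt T F J Y π → n = q + d → ∀ (y : Y.X) (Z : Mf d) (i : Z.X → X.X)
  (hi : Emb d n i (π ⁻¹' {y})), Fib T F l J hi.hol

namespace SysH
variable {T : CT} {n : ℕ} {X : Mf n}

theorem zero (hT : T.OK) {F : Pf X} {l : T.H X →ₗ[ℝ] ℝ} (h : F.Deg T l) {a : T.H X}
    (ha : T.Dg X 1 a) (h0 : F.ph T a = 0) : l a = 0 := by
  obtain ⟨w, hw⟩ := (hT.po.kah _).1 F.kK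
  have h1 := congrArg (fun b => T.int F.K (b * w ^ F.k)) ((h a ha).symm.trans h0)
  simp only [zero_mul, map_zero, ← Algebra.smul_def, map_smul, smul_eq_mul] at h1
  exact (mul_eq_zero.1 h1).resolve_right (Ma.kc_vol hT hw (F.p F.cU.toNonempty.some)).ne'

theorem const (hT : T.OK) {q : ℕ} {Y : Mf q} {π : X.X → Y.X} (hπ : HolM n q π)
    (h : ∀ x y, π x = π y) {b : T.H Y} (hb : T.Dg X 1 (T.pull hπ b)) : T.pull hπ b = 0 := by
  rw [← hb, ← hT.rg.pull_pr]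
  refine hT.rg.van hπ 1 (fun x => ?_) b
  rw [Df_congr (f' := fun _ => π x) (.of_forall fun y => h y x), Df_const, LinearMap.range_zero,
    finrank_bot]
  exact one_pos

theorem last {A : ℕ → Prop} (h0 : A 0) {N : ℕ} (h : ∀ r, A r → r ≤ N) : ∃ r, A r ∧ ¬ A (r + 1) := by
  by_contra! k
  exact Nat.not_succ_le_self N (h _ (Nat.rec (motive := A) h0 k (N + 1)))

end SysH

open SysH in
theorem sys_of (nf : NEWF) (px : PFX) (qj : QJ) (dgl : DGL) (kc : KC) (bf : BF) (fb : FIBX) :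
    SYS := by
  intro T hT hR n V hn hF hN
  obtain ⟨N, r, δ, P, pt, -, nw⟩ := nf V hn hF hN
  have kV : V.Kah := (hT.po.kah V).2 ⟨_, ((fa_iff hT).1 hF).2⟩
  have := hT.ho.fin V kV
  obtain ⟨ρ, ⟨F, l, h1, h2, h3, h4⟩, hm⟩ := last (N := finrank ℝ (T.H V))
    (A := fun ρ => ∃ (F : Fin ρ → Pf V) (l : Fin ρ → T.H V →ₗ[ℝ] ℝ), (∀ j, ∃ η, (F j).Pol T η) ∧
      (∀ j, (F j).Deg T (l j)) ∧ (∀ c : Fin ρ → ℝ, ∃ a, T.Dg V 1 a ∧ ∀ j, l j a = c j) ∧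
      ∀ j, ∃ (d k : ℕ) (G : Fam V P pt d (k + 4) k), Hy V P δ pt d G.M ∧ (F j).Of G)
    ⟨Fin.elim0, Fin.elim0, fun j => j.elim0, fun j => j.elim0,
      fun _ => ⟨0, map_zero _, fun j => j.elim0⟩, fun j => j.elim0⟩
    fun ρ ⟨_, l, _, _, h, _⟩ => by
      simpa using LinearMap.finrank_le_finrank_of_surjective (f := LinearMap.pi l) fun c =>
        (h c).imp fun a k => funext k.2
  obtain ⟨q, Y, π, hq⟩ := qj T hT hR F univ hF
  have hc : ∀ x y, π x = π y := by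
    by_contra! k
    obtain ⟨d, k, G, g1, g2, u, v, g3⟩ := nw Y π hq.sub.hol k
    obtain ⟨F', f1, f2⟩ := px T hT hR G hF g1 g2
    obtain ⟨⟨l', f3⟩, f4⟩ := dgl T hT F'
    obtain ⟨w, hw⟩ := (hT.po.kah Y).1 hq.kah
    have b1 := Ma.dg_pull hT hq.sub.hol (hT.po.deg hw)
    have b2 : 0 < l' (T.pull hq.sub.hol w) := (f4 l' f3).2.2.2.1 Y π _ w hw (by
      obtain ⟨_, _, _, _, _, _, _, _, rfl, -⟩ := f1
      exact ⟨u, v, g3⟩)
    refine hm ⟨Fin.cons F' F, Fin.cons l' l, Fin.cases ⟨_, f2⟩ h1, Fin.cases f3 h2, fun c => ?_,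
      Fin.cases ⟨d, k, G, g1, f1⟩ h4⟩
    obtain ⟨a, a1, a2⟩ := h3 fun j => c j.succ
    refine ⟨a + ((c 0 - l' a) / l' (T.pull hq.sub.hol w)) • T.pull hq.sub.hol w, ?_,
      Fin.cases ?_ fun j => ?_⟩
    · unfold CT.Dg at *
      rw [map_add, map_smul, a1, b1]
    · rw [Fin.cons_zero, map_add, map_smul, smul_eq_mul, div_mul_cancel₀ _ b2.ne', add_sub_cancel]
    · rw [Fin.cons_succ, map_add, map_smul, zero hT (h2 j) b1 (hq.ph j trivial w), smul_zero,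
        add_zero, a2]
  have hB : Bas T F l := ⟨h1, h2, fun a ha h => by
    obtain ⟨b, rfl⟩ := hq.s4 a fun j _ => by rw [h2 j a ha, h j, map_zero]
    exact const hT _ hc ha, h3⟩
  have hQ := fun J => qj T hT hR F J hF
  exact ⟨N, r, δ, ρ, P, pt, F, l, ⟨hB, fun a ha => ⟨fun k j => let ⟨η, hη⟩ := h1 j
    ((dgl T hT (F j)).2 _ (h2 j)).2.2.1 η a hη k, (kc T hT F l hF.1 kV hB hQ).1 a ha⟩,
    fun x y => (hq.rel x y).1 (hc x y), hQ, bf T hT F l hF hB hQ, fb hT hR hF hB⟩, h4⟩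

end Vale.Agent.P280Z.Sq
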