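import Vale.Agent.P280Z.Sq.Sk
import Vale.Agent.P281Z.Mf.Prod

/-!
# P280Z, block Sq: two complementary quotients are transversal at some point
-/

open scoped Manifold ContDiff Topology
open Set Filter
open Vale.Agent.P272.K Vale.Agent.P285.H281.FD Vale.Agent.P281Z
open Vale.Agent.P277Z (at_chart)

noncomputable section

namespace Vale.Agent.P280Z.Sq

namespace TrvH

theorem rk_lt {d p : ℕ} {E : Mf d} {Y : Mf p} {f : E.X → Y.X} (hf : HolM d p f) {x : E.X}
    (h : ¬ Imm d p f x) : Module.finrank ℂ (LinearMap.range (Df d p f x)) < d := by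
  refine not_le.1 fun k => h (.of_chart (hf.at x) (at_chart x) (at_chart _) ?_)
  have h1 := LinearMap.finrank_range_add_finrank_ker (Df d p f x)
  rw [Module.finrank_fin_fun] at h1
  exact (LinearMap.ker_eq_bot (f := Df d p f x)).1 (Submodule.finrank_eq_zero.1 (by omega))

theorem dg_pow {T : CT} (hT : T.Rg) {n : ℕ} {V : Mf n} {a : T.H V} (ha : T.Dg V 1 a) (k : ℕ) :
    T.Dg V k (a ^ k) := by
  induction k with
  | zero => simpa using hT.dg_one V
  | succ k ih => simpa [pow_succ] using hT.dg_mul V _ _ _ _ ih ha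

end TrvH

open TrvH in
/-- **row TRV** -/
theorem trv : TRV := by
  intro T hT n q q' X Y Y' π π' hπ hπ' b b' ⟨x₀⟩ hb hb' hk
  have hG := hπ.pair hπ'
  have h1 : T.pull hπ b + T.pull hπ' b' =
      T.pull hG (T.pull (hol_p1 (W := Y')) b + T.pull (hol_p2 (V := Y)) b') := by
    rw [map_add, ← hT.rg.pull_comp hG hol_p1 hπ fun _ => rfl,
      ← hT.rg.pull_comp hG hol_p2 hπ' fun _ => rfl]
  have h2 : T.Dg (Y.prod Y') 1 (T.pull (hol_p1 (W := Y')) b + T.pull (hol_p2 (V := Y)) b') := by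
    rw [CT.Dg, map_add, ← hT.rg.pull_pr, ← hT.rg.pull_pr, hb, hb']
  have h3 := hT.po.pos 0 n x₀ hk hk (zero_add _) rfl (by simp)
  by_contra k
  rw [pow_zero, one_mul, h1, ← map_pow, ← dg_pow hT.rg h2 n, hT.rg.van hG n fun x =>
    rk_lt hG fun c => k ⟨x, (imm_pair (hπ.at x) (hπ'.at x) (at_chart x) (at_chart _)
      (at_chart _)).1 c⟩, map_zero] at h3
  exact h3.false

end Vale.Agent.P280Z.Sq
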