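import Vale.Agent.P280Z.Sq.Adj
import Vale.Agent.P280Z.Sq.Bf
import Vale.Agent.P280Z.Sq.Comp
import Vale.Agent.P280Z.Sq.Dgl
import Vale.Agent.P280Z.Sq.Dist
import Vale.Agent.P280Z.Sq.Fac
import Vale.Agent.P280Z.Sq.Fib
import Vale.Agent.P280Z.Sq.Germ
import Vale.Agent.P280Z.Sq.Hol
import Vale.Agent.P280Z.Sq.Int
import Vale.Agent.P280Z.Sq.Jac
import Vale.Agent.P280Z.Sq.Kc
import Vale.Agent.P280Z.Sq.Ksub
import Vale.Agent.P280Z.Sq.Leaf
import Vale.Agent.P280Z.Sq.Lnk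
import Vale.Agent.P280Z.Sq.One
import Vale.Agent.P280Z.Sq.Qb
import Vale.Agent.P280Z.Sq.Qj
import Vale.Agent.P280Z.Sq.Qt
import Vale.Agent.P280Z.Sq.Res
import Vale.Agent.P280Z.Sq.Rnk
import Vale.Agent.P280Z.Sq.Sf
import Vale.Agent.P280Z.Sq.Sys
import Vale.Agent.P280Z.Sq.Trv
import Vale.Agent.P280Z.Sq.Trx
import Vale.Agent.P280Z.Gm.All

/-!
# P280Z, block Sq: the quotients exist
-/

namespace Vale.Agent.P280Z.Sq

theorem trx : TRX := trx_of comp fac

theorem leaf : LEAF := leaf_of fac int_ trx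

theorem hol : HOL := hol_of trx leaf (germ_of trx) adj inj Gm.cov

theorem qt : QT := qt_of (dist_of comp rnk) int_ (one_of comp fac int_ plq) trx leaf hol qb

theorem qj : QJ := qj_of comp qt ksub (sf_of inj) lnk

theorem kc : KC := kc_of inj dgl

theorem fibx : FIBX := fib_of adj res dgl qj

theorem bf : BF := bf_of dgl kc jac trv

theorem sys0 (nf : NEWF) (px : PFX) : SYS := sys_of nf px qj dgl kc bf fibx

end Vale.Agent.P280Z.Sq
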