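import Vale.Agent.P280Z.Sq.Defs

/-!
# P280Z, block Sq: the rows
-/

open scoped Manifold ContDiff Topology Matrix
open Set Filter Module
open Vale.Agent.P272.K Vale.Agent.P285.H281.FD Vale.Agent.P281Z
open Vale.Agent.P277Z.Slc (lin)
open Vale.Agent.P277.HD (pull)
open Vale.Agent.P280Z.Gm (HRR Fa)

noncomputable section

namespace Vale.Agent.P280Z.Sq

/-- a correspondence -/
structure Cor {n : ℕ} (X : Mf n) : Type 1 where
  m : ℕ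
  C : Mf m
  a : C.X → X.X
  b : C.X → X.X
  sa : Sub m n a
  sb : Sub m n b
  kah : C.Kah
  ca : ∀ x, IsConnected (a ⁻¹' {x})
  cb : ∀ x, IsConnected (b ⁻¹' {x})
  dg : ∀ x, ∃ c, a c = x ∧ b c = x

section
variable {n : ℕ} {X : Mf n}

/-- the transposed correspondence -/
def Cor.swap (C : Cor X) : Cor X :=
  ⟨C.m, C.C, C.b, C.a, C.sb, C.sa, C.kah, C.cb, C.ca, fun x => (C.dg x).imp fun _ h => h.symm⟩

/-- `E` is the composition of `C` and `C'` -/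
structure Cor.Cmp (C C' E : Cor X) (f : E.C.X → C.C.X) (g : E.C.X → C'.C.X) : Prop where
  cart : Cart C'.a C.b f g
  a : ∀ z, E.a z = C.a (f z)
  b : ∀ z, E.b z = C'.b (g z)

/-- the directions in which the end point moves when the first point is fixed -/
def Cor.Dv (C : Cor X) (c : C.C.X) : Submodule ℂ (Cm n) :=
  (LinearMap.ker (Df C.m n C.a c)).map (Df C.m n C.b c)

/-- `f` is the transport of `h` along `c` -/
def Cor.Tr (C : Cor X) {q : ℕ} (h f : X.X → Cm q) (c : C.C.X) : Prop :=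
  ∀ᶠ c' in 𝓝 c, f (C.b c') = h (C.a c')

/-- a class of correspondences -/
structure Cls (S : Cor X → Prop) : Prop where
  ne : ∃ C, S C
  swap : ∀ C, S C → S C.swap
  cmp : ∀ C C' E f g, S C → S C' → Cor.Cmp C C' E f g → S E

/-- the relation of a class -/
def Rl (S : Cor X → Prop) (x y : X.X) : Prop := ∃ C, S C ∧ ∃ c, C.a c = x ∧ C.b c = y

/-- the transport of germs -/
def Go (S : Cor X → Prop) {q : ℕ} (x : X.X) (h : X.X → Cm q) (y : X.X) (f : X.X → Cm q) : Prop :=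
  ∃ C, S C ∧ ∃ c, C.a c = x ∧ C.b c = y ∧ C.Tr h f c

/-- `C` gives the whole relation -/
def Top (S : Cor X → Prop) (C : Cor X) : Prop :=
  S C ∧ ∀ x y, Rl S x y → ∃ c, C.a c = x ∧ C.b c = y

/-- the invariant distribution -/
structure Dis (S : Cor X → Prop) (d : ℕ) (D : X.X → Submodule ℂ (Cm n)) : Prop where
  cls : Cls S
  rk : ∀ x, finrank ℂ (D x) = d
  inv : ∀ C, S C → ∀ c v, Df C.m n C.a c v ∈ D (C.a c) ↔ Df C.m n C.b c v ∈ D (C.b c)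
  ex : ∃ C, S C ∧ ∀ x, ∃ c, C.a c = x ∧ C.Dv c = D (C.b c)

/-- `h` is a first integral of `D` at `x` -/
structure FI (q : ℕ) (D : X.X → Submodule ℂ (Cm n)) (h : X.X → Cm q) (x : X.X) : Prop where
  hol : HolA n q h x
  sbm : Sbm n q h x
  ker : ∀ᶠ y in 𝓝 x, LinearMap.ker (Df n q h y) = D y

end

/-- row COMP -/
def COMP : Prop := ∀ {n : ℕ} {X : Mf n} (C C' : Cor X), Nonempty X.X →
  ∃ E f g, Cor.Cmp C C' E f g

/-- row RNK: the maximal rank is attained over every point -/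
def RNK : Prop := ∀ T : CT, T.OK → ∀ {n : ℕ} {X : Mf n} (C : Cor X) (k : ℕ), ConnectedSpace X.X →
  X.Kah → (∃ c, k ≤ finrank ℂ (C.Dv c)) → ∀ x, ∃ c, C.a c = x ∧ k ≤ finrank ℂ (C.Dv c)

/-- row DIST -/
def DIST : Prop := ∀ T : CT, T.OK → ∀ {n : ℕ} {X : Mf n} (S : Cor X → Prop), ConnectedSpace X.X →
  X.Kah → Cls S → ∃ d D, Dis S d D

/-- row FAC: factorisation through a submersion -/
def FAC : Prop :=
  (∀ {l p q : ℕ} {Z : Mf l} {A : Type} [TopologicalSpace A] [ChartedSpace (Cm p) A]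
    [IsManifold 𝓘(ℂ, Cm p) ω A] (f : Z.X → A) (g : Z.X → Cm q) (z : Z.X), HolA l p f z →
    Sbm l p f z → HolA l q g z → (∀ᶠ w in 𝓝 z, ∀ v, Df l p f w v = 0 → Df l q g w v = 0) →
    ∃ γ : A → Cm q, HolA p q γ (f z) ∧ ∀ᶠ w in 𝓝 z, γ (f w) = g w) ∧
  ∀ {l q : ℕ} {Z : Mf l} (g : Z.X → Cm q) (z : Z.X), HolA l q g z →
    (∀ᶠ w in 𝓝 z, Df l q g w = 0) → ∀ᶠ w in 𝓝 z, g w = g z

/-- row INT: local first integrals -/
def INT : Prop := ∀ {n d q : ℕ} {X : Mf n} (S : Cor X → Prop) (D : X.X → Submodule ℂ (Cm n)),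
  Dis S d D → d + q = n → ∀ x, ∃ (h : X.X → Cm q) (C : Cor X) (s : X.X → C.C.X) (ψ : Cm q → X.X),
    FI q D h x ∧ S C ∧ ContinuousAt s x ∧ ∀ᶠ y in 𝓝 x, C.a (s y) = y ∧ C.b (s y) = ψ (h y)

/-- row PLQ: a plaque lies in the image -/
def PLQ : Prop := ∀ {l n q : ℕ} {Z : Mf l} {X : Mf n} (g : Z.X → X.X) (h : X.X → Cm q) (z : Z.X),
  HolA l n g z → HolA n q h (g z) → Sbm n q h (g z) →
  LinearMap.ker (Df n q h (g z)) ≤ LinearMap.range (Df l n g z) →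
  (∀ᶠ w in 𝓝 z, h (g w) = h (g z)) → ∀ᶠ y in 𝓝 (g z), h y = h (g z) → y ∈ range g

/-- row ONE: chains of bounded length -/
def ONE : Prop := ∀ {n d : ℕ} {X : Mf n} (S : Cor X → Prop) (D : X.X → Submodule ℂ (Cm n)),
  Dis S d D → ∀ C, S C → (∀ x, ∃ c, C.a c = x ∧ C.Dv c = D (C.b c)) → Top S C

/-- row TRX: the transport of first integrals -/
def TRX : Prop := ∀ {n d q : ℕ} {X : Mf n} (S : Cor X → Prop) (D : X.X → Submodule ℂ (Cm n)),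
  Dis S d D →
  (∀ C, S C → ∀ c (h : X.X → Cm q), FI q D h (C.a c) → ∃ f, C.Tr h f c) ∧
  (∀ C, S C → ∀ c (h f : X.X → Cm q), FI q D h (C.a c) → C.Tr h f c → FI q D f (C.b c)) ∧
  (∀ (C : Cor X) c (h f f' : X.X → Cm q), C.Tr h f c → C.Tr h f' c → f =ᶠ[𝓝 (C.b c)] f') ∧
  (∀ x y z (h f g : X.X → Cm q), Go S x h y f → Go S y f z g → Go S x h z g) ∧
  ∀ x y z, Rl S x y → Rl S y z → Rl S x z

/-- row LEAF: the classes are leaves, the transport along a plaque is trivial -/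
def LEAF : Prop := ∀ {n d q : ℕ} {X : Mf n} (S : Cor X → Prop) (D : X.X → Submodule ℂ (Cm n)),
  Dis S d D → d + q = n → ∀ C, Top S C → ∀ x (h : X.X → Cm q), FI q D h x →
  (∀ᶠ y in 𝓝 x, Rl S x y ↔ h y = h x) ∧ (∀ᶠ y in 𝓝 x, Rl S x y → Go S x h y h) ∧
    ∃ W ∈ 𝓝 x, ∀ y ∈ W, ∀ y' ∈ W, h y = h y' → Rl S y y'

/-- row GERM: all the transports are given by one correspondence -/
def GERM : Prop := ∀ {n d q : ℕ} {X : Mf n} (S : Cor X → Prop) (D : X.X → Submodule ℂ (Cm n)),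
  Dis S d D → ∀ C, Top S C → ∀ x y (h f : X.X → Cm q), FI q D h x → Go S x h y f →
  ∃ c, C.a c = x ∧ C.b c = y ∧ C.Tr h f c

/-- row ETL: the covering space of the admissible germs -/
def ETL : Prop := ∀ {d : ℕ} (L : Mf d) (A K : Type) [TopologicalSpace K] [CompactSpace K]
  [ConnectedSpace K] (E : L.X → A → A → Prop) (G : L.X → A → Prop) (β : K → L.X) (φ : K → A),
  (∀ y, Equivalence (E y)) → (∀ y f g, E y f g → ∀ᶠ y' in 𝓝 y, E y' f g) →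
  (∀ y f g, G y f → G y g → (∃ᶠ y' in 𝓝 y, E y' f g) → E y f g) →
  (∀ y f, G y f → ∀ᶠ y' in 𝓝 y, G y' f) → Continuous β → (∀ k, G (β k) (φ k)) →
  (∀ k, ∀ᶠ k' in 𝓝 k, E (β k') (φ k') (φ k)) → (∀ y f, G y f → ∃ k, β k = y ∧ E y (φ k) f) →
  ∃ (Z : Mf d) (ε : Z.X → L.X) (ψ : Z.X → A), Sub d d ε ∧ ConnectedSpace Z.X ∧
    (∀ z, G (ε z) (ψ z)) ∧ (∀ z, ∀ᶠ z' in 𝓝 z, E (ε z') (ψ z') (ψ z)) ∧
    ∀ y f g, G y f → G y g → ∃ z z', ε z = y ∧ ε z' = y ∧ E y (ψ z) f ∧ E y (ψ z') g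

/-- row ADJ: adjunction for a trivial normal bundle -/
def ADJ : Prop := ∀ T : CT, T.OK → ∀ {d q n : ℕ} (Z : Mf d) (X : Mf n) (j : Z.X → X.X)
  (hj : HolM d n j) (f : Z.X → X.X → Cm q), d + q = n → (∀ z, Imm d n j z) →
  (∀ z, HolA n q (f z) (j z) ∧ Sbm n q (f z) (j z) ∧ (∀ᶠ z' in 𝓝 z, f z (j z') = f z (j z)) ∧
    ∀ᶠ z' in 𝓝 z, f z' =ᶠ[𝓝 (j z')] f z) →
  T.c1 Z (Bd.can d Z.X) = T.pull hj (T.c1 X (Bd.can n X.X))

/-- row HOL: there is no holonomy -/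
def HOL : Prop := ∀ T : CT, T.OK → HRR T → ∀ {n d q : ℕ} {X : Mf n} (S : Cor X → Prop)
  (D : X.X → Submodule ℂ (Cm n)), Fa T X → Dis S d D → d + q = n → ∀ C, Top S C →
  ∀ c (h : X.X → Cm q), C.b c = C.a c → FI q D h (C.a c) → C.Tr h h c

/-- row QB: the quotient by a relation with boxes -/
def QB : Prop := ∀ {n q : ℕ} (X : Mf n) (R : X.X → X.X → Prop), Equivalence R →
  IsClosed {p : X.X × X.X | R p.1 p.2} →
  (∀ x x', R x x' → ∃ τ : X.X → X.X, HolA n n τ x ∧ τ x = x' ∧ ∀ᶠ y in 𝓝 x, R y (τ y)) →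
  (∀ x, ∃ h : X.X → Cm q, HolA n q h x ∧ Sbm n q h x ∧
    ∃ W ∈ 𝓝 x, ∀ y ∈ W, ∀ y' ∈ W, (R y y' ↔ h y = h y')) →
  ∃ (Y : Mf q) (π : X.X → Y.X), Sub n q π ∧ Function.Surjective π ∧ ∀ x y, π x = π y ↔ R x y

/-- the quotient by a class of correspondences -/
def QT : Prop := ∀ T : CT, T.OK → HRR T → ∀ {n : ℕ} {X : Mf n} (S : Cor X → Prop),
  ConnectedSpace X.X → Fa T X → Cls S → ∃ (q : ℕ) (Y : Mf q) (π : X.X → Y.X) (C : Cor X),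
    Sub n q π ∧ Function.Surjective π ∧ (∀ x y, π x = π y ↔ Rl S x y) ∧ Top S C ∧
    ∃ c, C.Dv c = LinearMap.ker (Df n q π (C.b c))

/-- row KSUB -/
def KSUB : Prop := ∀ {n m : ℕ} (V : Mf n) (W : Mf m) (f : V.X → W.X), Sub n m f →
  Function.Surjective f → V.Kah → W.Kah

/-- row INJ: the pull back by a dominant map is injective -/
def INJ : Prop := ∀ T : CT, T.OK → ∀ {m n : ℕ} {C : Mf m} {Z : Mf n} {φ : C.X → Z.X}
  (hφ : HolM m n φ), C.Kah → Z.Kah → ConnectedSpace Z.X → (∃ c, Sbm m n φ c) →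
  ∀ u, T.pull hφ u = 0 → u = 0

/-- row SF: invariant classes come from the base -/
def SF : Prop := ∀ T : CT, T.OK → ∀ {n q : ℕ} {X : Mf n} {Y : Mf q} {π : X.X → Y.X}
  (hπ : Sub n q π) (C : Cor X), ConnectedSpace X.X → X.Kah → (∀ y, IsConnected (π ⁻¹' {y})) →
  (∀ c, π (C.a c) = π (C.b c)) → (∃ c, C.Dv c = LinearMap.ker (Df n q π (C.b c))) →
  ∀ u, T.pull C.sa.hol u = T.pull C.sb.hol u → ∃ v, u = T.pull hπ.hol v

/-- row LNK: the correspondence of a family -/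
def LNK : Prop := ∀ T : CT, T.OK → ∀ {n : ℕ} {X : Mf n} (F : Pf X), ∃ C : Cor X,
  (∀ x y, F.Lk x y ↔ ∃ c, C.a c = x ∧ C.b c = y) ∧
    ∀ u, F.ph T u = 0 → T.pull C.sa.hol u = T.pull C.sb.hol u

/-- the quotient by a set of families -/
def QJ : Prop := ∀ T : CT, T.OK → HRR T → ∀ {n : ℕ} {X : Mf n} {ι : Type} (F : ι → Pf X)
  (J : Set ι), Fano n X.X → ∃ (q : ℕ) (Y : Mf q) (π : X.X → Y.X), Qt T F J Y π

/-- row DGL: the degree on the curves of a family -/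
def DGL : Prop := ∀ T : CT, T.OK → ∀ {n : ℕ} {X : Mf n} (F : Pf X), (∃ l, F.Deg T l) ∧
  ∀ l, F.Deg T l → (∀ a, T.Nn X a → 0 ≤ l a) ∧ (∀ η, F.Pol T η → l η = 1) ∧
    (∀ η a, F.Pol T η → T.Kc X a → 0 < l a) ∧
    (∀ {q : ℕ} (Y : Mf q) (π : X.X → Y.X) (hπ : HolM n q π) w, T.Kc Y w →
      (∃ u v, F.p u = F.p v ∧ π (F.e u) ≠ π (F.e v)) → 0 < l (T.pull hπ w)) ∧
    ∀ y, ∃ (P : Mf 1) (i : P.X → X.X) (hi : HolM 1 n i), ConnectedSpace P.X ∧ P.Kah ∧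
      range i = F.e '' (F.p ⁻¹' {y}) ∧ ∀ a, T.Dg X 1 a → T.int P (T.pull hi a) = l a

/-- row KC: the cone of the Kähler classes -/
def KC : Prop := ∀ T : CT, T.OK → ∀ {n ρ : ℕ} {X : Mf n} (F : Fin ρ → Pf X)
  (l : Fin ρ → T.H X →ₗ[ℝ] ℝ), ConnectedSpace X.X → X.Kah → Bas T F l →
  (∀ J : Set (Fin ρ), ∃ (q : ℕ) (Y : Mf q) (π : X.X → Y.X), Qt T F J Y π) →
  (∀ a, T.Dg X 1 a → (∀ j, 0 < l j a) → T.Kc X a) ∧
    ∀ (J : Set (Fin ρ)) {q : ℕ} (Y : Mf q) (π : X.X → Y.X) (h : Qt T F J Y π) (b : T.H Y),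
      T.Dg Y 1 b → (∀ j ∉ J, 0 < l j (T.pull h.sub.hol b)) → T.Kc Y b

/-- row JAC: the Jacobian determinant along a map -/
def JAC : Prop := ∀ {n q d k : ℕ} (X : Mf n) (Y : Mf q) (P : Mf k) (π : X.X → Y.X) (i : P.X → X.X)
  (t : X.X → Cm d), HolM n q π → HolM k n i → (∀ z, HolA n d t (i z)) → q + d = n →
  ∃ s, IsSec k (pull i (lin ![Bd.can n X.X, pull π (Bd.can q Y.X)] ![1, -1])) s ∧
    ∀ z, NZ _ s z ↔ ∀ v, Df n q π (i z) v = 0 → Df n d t (i z) v = 0 → v = 0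

/-- row TRV: two complementary quotients are transversal at some point -/
def TRV : Prop := ∀ T : CT, T.OK → ∀ {n q q' : ℕ} {X : Mf n} {Y : Mf q} {Y' : Mf q'}
  {π : X.X → Y.X} {π' : X.X → Y'.X} (hπ : HolM n q π) (hπ' : HolM n q' π') (b : T.H Y)
  (b' : T.H Y'), Nonempty X.X → T.Dg Y 1 b → T.Dg Y' 1 b' → T.Kc X (T.pull hπ b + T.pull hπ' b') →
  ∃ x, ∀ v, Df n q π x v = 0 → Df n q' π' x v = 0 → v = 0

/-- row BF: the bases are Fano manifolds -/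
def BF : Prop := ∀ T : CT, T.OK → ∀ {n ρ : ℕ} {X : Mf n} (F : Fin ρ → Pf X)
  (l : Fin ρ → T.H X →ₗ[ℝ] ℝ), Fano n X.X → Bas T F l →
  (∀ J : Set (Fin ρ), ∃ (q : ℕ) (Y : Mf q) (π : X.X → Y.X), Qt T F J Y π) →
  ∀ (J : Set (Fin ρ)) {q : ℕ} (Y : Mf q) (π : X.X → Y.X), Qt T F J Y π → Fano q Y.X

/-- row RES: the restriction of a family to a fibre -/
def RES : Prop := ∀ T : CT, T.OK → ∀ {n q d : ℕ} {X : Mf n} {Y : Mf q} {Z : Mf d} (F : Pf X)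
  (π : X.X → Y.X) (g : F.K.X → Y.X) (y : Y.X) (i : Z.X → X.X) (hi : Emb d n i (π ⁻¹' {y})),
  n = q + d → Sub n q π → Sub F.k q g → (∀ u, π (F.e u) = g (F.p u)) → ConnectedSpace Z.X →
  ∃ (G : Pf Z) (κ : G.K.X → F.K.X) (j : G.U.X → F.U.X), F.Res G i κ j ∧
    (∀ η, F.Pol T η → G.Pol T (T.pull hi.hol η)) ∧ ∀ x x', F.Lk (i x) (i x') → G.Lk x x'

end Vale.Agent.P280Z.Sq
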